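import Vale.Agent.Lib.P012.GoodStep

/-!
# P012, Part F: the base case of the construction
-/

namespace Vale.Agent.Lib.P012

open Finset

lemma good_sixteen : Good 16 5 := by
  intro m hm
  interval_cases m
  · exact ⟨∅, by decide, by decide, by decide⟩
  · exact ⟨{1}, by decide, by decide, by decide⟩
  · exact ⟨{2}, by decide, by decide, by decide⟩
  · exact ⟨{1, 2}, by decide, by decide, by decide⟩
  · exact ⟨{4}, by decide, by decide, by decide⟩
  · exact ⟨{1, 4}, by decide, by decide, by decide⟩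
  · exact ⟨{2, 4}, by decide, by decide, by decide⟩
  · exact ⟨{1, 2, 4}, by decide, by decide, by decide⟩
  · exact ⟨{8}, by decide, by decide, by decide⟩
  · exact ⟨{1, 8}, by decide, by decide, by decide⟩
  · exact ⟨{2, 8}, by decide, by decide, by decide⟩
  · exact ⟨{1, 2, 8}, by decide, by decide, by decide⟩
  · exact ⟨{4, 8}, by decide, by decide, by decide⟩
  · exact ⟨{1, 4, 8}, by decide, by decide, by decide⟩
  · exact ⟨{2, 4, 8}, by decide, by decide, by decide⟩
  · exact ⟨{1, 2, 4, 8}, by decide, by decide, by decide⟩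
  · exact ⟨{16}, by decide, by decide, by decide⟩

/-- multiplying a good number by a small coprime prime doubles the number of summands at most -/
lemma good_mul_of_le {N h p : ℕ} (hN : Good N h) (hcop : Nat.Coprime N p) (hp : 0 < p)
    (hpN : p ≤ N) : Good (N * p) (h + h) := by
  refine good_step hN hcop hp ?_
  intro x
  have hr : x % p ≤ N := (Nat.mod_lt x hp).le.trans hpN
  obtain ⟨S, hS, hc, hsum⟩ := hN (x % p) hr
  exact ⟨S, hS, hc, hsum ▸ hr, hsum ▸ Nat.mod_modEq x p⟩

/-- strengthened invariant for the induction -/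
def Inv' (u N h : ℕ) : Prop :=
  Inv u N h ∧ (∀ p : ℕ, p.Prime → p ∣ N → p ≤ 2 ^ (2 * u + 1)) ∧ 2 ^ (2 * u + 4) ≤ N

lemma card_divisors_mul_prime {U p : ℕ} (hp : p.Prime) (hcop : Nat.Coprime U p) :
    (U * p).divisors.card = U.divisors.card * 2 := by
  rw [Nat.Coprime.card_divisors_mul hcop, Nat.Prime.divisors hp, card_pair hp.one_lt.ne]

lemma base_case' (u : ℕ) : ∃ N h, Inv' u N h := by
  induction u with
  | zero =>
    refine ⟨16, 5, ⟨1, 1, by norm_num, by norm_num, by decide, by decide, by decide, by decide,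
      by norm_num, good_sixteen⟩, ?_, by norm_num⟩
    intro p hp hd
    have h16 : (16 : ℕ) = 2 ^ 4 := by norm_num
    rw [h16] at hd
    have := (Nat.prime_dvd_prime_iff_eq hp Nat.prime_two).mp (hp.dvd_of_dvd_pow hd)
    rw [this]; norm_num
  | succ u ih =>
    obtain ⟨N, h, ⟨U, V, hNUV, hUV, hU, hV, hUc, hVc, hNle, hgood⟩, hprimes, hNge⟩ := ih
    obtain ⟨p1, hp1, hp1l, hp1u⟩ := Nat.exists_prime_lt_and_le_two_mul (2 ^ (2 * u + 1)) (by positivity)
    obtain ⟨p2, hp2, hp2l, hp2u⟩ := Nat.exists_prime_lt_and_le_two_mul (2 ^ (2 * u + 2)) (by positivity)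
    have e1 : 2 * 2 ^ (2 * u + 1) = 2 ^ (2 * u + 2) := by ring
    have e2 : 2 * 2 ^ (2 * u + 2) = 2 ^ (2 * u + 3) := by ring
    rw [e1] at hp1u
    rw [e2] at hp2u
    have hNpos : 0 < N := lt_of_lt_of_le (by positivity) hNge
    -- coprimality
    have hc1 : Nat.Coprime N p1 := by
      rw [Nat.coprime_comm, Nat.Prime.coprime_iff_not_dvd hp1]
      intro hd
      have := hprimes p1 hp1 hd
      omega
    have hc2 : Nat.Coprime N p2 := by
      rw [Nat.coprime_comm, Nat.Prime.coprime_iff_not_dvd hp2]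
      intro hd
      have := hprimes p2 hp2 hd
      have h3 : 2 ^ (2 * u + 1) ≤ 2 ^ (2 * u + 2) := Nat.pow_le_pow_right (by norm_num) (by omega)
      omega
    have hp12 : p1 ≠ p2 := by omega
    have hc12 : Nat.Coprime p1 p2 := (Nat.coprime_primes hp1 hp2).mpr hp12
    have hc3 : Nat.Coprime (N * p1) p2 := Nat.Coprime.mul_left hc2 hc12
    have hUN : U ∣ N := ⟨16 * V, by rw [hNUV]; ring⟩
    have hVN : V ∣ N := ⟨16 * U, by rw [hNUV]; ring⟩
    have hUp1 : Nat.Coprime U p1 := Nat.Coprime.coprime_dvd_left hUN hc1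
    have hUp2 : Nat.Coprime U p2 := Nat.Coprime.coprime_dvd_left hUN hc2
    have hVp1 : Nat.Coprime V p1 := Nat.Coprime.coprime_dvd_left hVN hc1
    have hVp2 : Nat.Coprime V p2 := Nat.Coprime.coprime_dvd_left hVN hc2
    have hpow1 : 2 ^ (2 * u + 2) ≤ 2 ^ (2 * u + 4) := Nat.pow_le_pow_right (by norm_num) (by omega)
    have hpow2 : 2 ^ (2 * u + 3) ≤ 2 ^ (2 * u + 4) := Nat.pow_le_pow_right (by norm_num) (by omega)
    have hg1 : Good (N * p1) (h + h) := good_mul_of_le hgood hc1 hp1.pos (by omega)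
    have hNp1 : N ≤ N * p1 := Nat.le_mul_of_pos_right N hp1.pos
    have hg2 : Good (N * p1 * p2) ((h + h) + (h + h)) :=
      good_mul_of_le hg1 hc3 hp2.pos (by omega)
    have hp1odd : Odd p1 := hp1.odd_of_ne_two (by
      have : 2 ≤ 2 ^ (2 * u + 1) := by
        calc 2 = 2 ^ 1 := by norm_num
          _ ≤ 2 ^ (2 * u + 1) := Nat.pow_le_pow_right (by norm_num) (by omega)
      omega)
    have hp2odd : Odd p2 := hp2.odd_of_ne_two (by
      have : 2 ≤ 2 ^ (2 * u + 2) := by
        calc 2 = 2 ^ 1 := by norm_num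
          _ ≤ 2 ^ (2 * u + 2) := Nat.pow_le_pow_right (by norm_num) (by omega)
      omega)
    refine ⟨N * p1 * p2, (h + h) + (h + h), ⟨U * p1, V * p2, ?_, ?_, hU.mul hp1odd, hV.mul hp2odd,
      ?_, ?_, ?_, hg2⟩, ?_, ?_⟩
    · rw [hNUV]; ring
    · exact Nat.Coprime.mul_left (Nat.Coprime.mul_right hUV hUp2)
        (Nat.Coprime.mul_right hVp1.symm hc12)
    · rw [card_divisors_mul_prime hp1 hUp1, hUc, pow_succ]
    · rw [card_divisors_mul_prime hp2 hVp2, hVc, pow_succ]
    · calc N * p1 * p2 ≤ 2 ^ (4 * (u + 1) ^ 2) * 2 ^ (2 * u + 2) * 2 ^ (2 * u + 3) := by gcongr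
        _ = 2 ^ (4 * (u + 1) ^ 2 + (2 * u + 2) + (2 * u + 3)) := by
            rw [pow_add _ (4 * (u + 1) ^ 2 + (2 * u + 2)) (2 * u + 3),
              pow_add _ (4 * (u + 1) ^ 2) (2 * u + 2)]
        _ ≤ 2 ^ (4 * (u + 1 + 1) ^ 2) := Nat.pow_le_pow_right (by norm_num) (by nlinarith)
    · intro p hp hd
      have e3 : 2 * (u + 1) + 1 = 2 * u + 3 := by ring
      rw [e3]
      rcases (Nat.Prime.dvd_mul hp).mp hd with hd | hd
      · rcases (Nat.Prime.dvd_mul hp).mp hd with hd | hd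
        · have := hprimes p hp hd
          have h3 : 2 ^ (2 * u + 1) ≤ 2 ^ (2 * u + 3) := Nat.pow_le_pow_right (by norm_num) (by omega)
          omega
        · have := (Nat.prime_dvd_prime_iff_eq hp hp1).mp hd
          have h3 : 2 ^ (2 * u + 2) ≤ 2 ^ (2 * u + 3) := Nat.pow_le_pow_right (by norm_num) (by omega)
          omega
      · have := (Nat.prime_dvd_prime_iff_eq hp hp2).mp hd
        omega
    · have e4 : 2 * (u + 1) + 4 = (2 * u + 4) + 1 + 1 := by ring
      rw [e4, pow_succ, pow_succ]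
      have h1 := hp1.two_le
      have h2 := hp2.two_le
      gcongr

theorem base_case (u : ℕ) : ∃ N h, Inv u N h := by
  obtain ⟨N, h, hI, _⟩ := base_case' u
  exact ⟨N, h, hI⟩

end Vale.Agent.Lib.P012
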