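import Vale.Agent.Lib.P012.Fourier2

namespace Vale.Agent.Lib.P012
open Finset

/-- a product of distinct primes divides `x` iff each of them does. -/
lemma prod_primes_dvd_iff (S : Finset ℕ) (hS : ∀ p ∈ S, p.Prime) (x : ℕ) :
    (∏ p ∈ S, p) ∣ x ↔ ∀ p ∈ S, p ∣ x := by
  constructor
  · intro h p hp
    exact (Finset.dvd_prod_of_mem _ hp).trans h
  · intro h
    exact Finset.prod_primes_dvd x (fun p hp => (hS p hp).prime) h

/-- the primes of `Q` not dividing (the representative of) `t`. -/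
def supp {P : ℕ} (Q : Finset ℕ) (t : ZMod P) : Finset ℕ := Q.filter (fun p => ¬ p ∣ t.val)

section
variable {P : ℕ} [NeZero P] (Q : Finset ℕ) (hQ : ∀ p ∈ Q, p.Prime) (hP : P = ∏ p ∈ Q, p)
include hQ hP

lemma mul_natCast_eq_zero_iff (t : ZMod P) (c : ℕ) (hc : ∀ p ∈ Q, ¬ p ∣ c) (d : ℕ) :
    P ∣ t.val * c * d ↔ (∏ p ∈ supp Q t, p) ∣ d := by
  have e : P ∣ t.val * c * d ↔ (∏ p ∈ Q, p) ∣ t.val * c * d := by
    constructor
    · intro h; exact hP ▸ h
    · intro h; exact hP.symm ▸ h
  rw [e, prod_primes_dvd_iff Q hQ, prod_primes_dvd_iff (supp Q t)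
    (fun p hp => hQ p (Finset.mem_filter.mp hp).1)]
  constructor
  · intro h p hp
    have hp' := Finset.mem_filter.mp hp
    have := h p hp'.1
    rcases ((hQ p hp'.1).dvd_mul.mp this) with h1 | h1
    · rcases ((hQ p hp'.1).dvd_mul.mp h1) with h2 | h2
      · exact absurd h2 hp'.2
      · exact absurd h2 (hc p hp'.1)
    · exact h1
  · intro h p hp
    by_cases h1 : p ∣ t.val
    · exact Dvd.dvd.mul_right (Dvd.dvd.mul_right h1 c) d
    · exact Dvd.dvd.mul_left (h p (Finset.mem_filter.mpr ⟨hp, h1⟩)) _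

lemma zmod_mul_sub_eq_zero_iff (t : ZMod P) (c : ℕ) (hc : ∀ p ∈ Q, ¬ p ∣ c) (a a' : ℕ) :
    (t * (c : ZMod P)) * ((a : ZMod P) - (a' : ZMod P)) = 0 ↔
      a ≡ a' [MOD ∏ p ∈ supp Q t, p] := by
  have h1 : (t * (c : ZMod P)) * ((a : ZMod P) - (a' : ZMod P))
      = (((t.val * c : ℕ) : ℤ) * ((a' : ℤ) - a) * (-1) : ℤ) := by
    push_cast
    rw [ZMod.natCast_zmod_val]
    ring
  rw [h1, ZMod.intCast_zmod_eq_zero_iff_dvd, Nat.modEq_iff_dvd, Int.natCast_dvd, Int.natCast_dvd,
    ← mul_natCast_eq_zero_iff Q hQ hP t c hc]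
  rw [Int.natAbs_mul, Int.natAbs_mul, Int.natAbs_natCast]
  simp

lemma EZ_eq_EE (t : ZMod P) (c : ℕ) (hc : ∀ p ∈ Q, ¬ p ∣ c) (A : Finset ℕ) :
    EZ A (t * (c : ZMod P)) = EE A (∏ p ∈ supp Q t, p) := by
  unfold EZ EE
  congr 1
  apply Finset.filter_congr
  intro q _
  exact zmod_mul_sub_eq_zero_iff Q hQ hP t c hc q.1 q.2

lemma prod_supp_mul (t : ZMod P) :
    (∏ p ∈ Q \ supp Q t, p) * (∏ p ∈ supp Q t, p) = P := by
  exact (Finset.prod_sdiff (Finset.filter_subset _ _)).trans hP.symm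

lemma annCard_ge (t : ZMod P) (c : ℕ) (hc : ∀ p ∈ Q, ¬ p ∣ c) :
    (∏ p ∈ Q \ supp Q t, p) ≤ annCard (t * (c : ZMod P)) := by
  set R := ∏ p ∈ Q \ supp Q t, p with hR
  set PI := ∏ p ∈ supp Q t, p with hPI
  have hmul : R * PI = P := prod_supp_mul Q hQ hP t
  have hPpos : 0 < P := Nat.pos_of_ne_zero (NeZero.ne P)
  have hPIpos : 0 < PI := by
    rcases Nat.eq_zero_or_pos PI with h | h
    · rw [h, mul_zero] at hmul; omega
    · exact h
  unfold annCard
  calc R = (Finset.range R).card := (Finset.card_range R).symm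
    _ ≤ _ := by
      apply Finset.card_le_card_of_injOn (fun j => ((PI * j : ℕ) : ZMod P))
      · intro j _
        simp only [Finset.coe_filter, Finset.mem_univ, true_and, Set.mem_ofPred_eq]
        have h1 : t * (c : ZMod P) * ((PI * j : ℕ) : ZMod P)
            = ((t.val * c * (PI * j) : ℕ) : ZMod P) := by
          push_cast
          rw [ZMod.natCast_zmod_val]
        rw [h1, ZMod.natCast_eq_zero_iff, mul_natCast_eq_zero_iff Q hQ hP t c hc]
        exact Dvd.intro j rfl
      · intro j hj j' hj' h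
        simp only [Finset.coe_range, Set.mem_Iio] at hj hj'
        have h2 := (ZMod.natCast_eq_natCast_iff' _ _ _).mp h
        have l1 : PI * j < P := by
          rw [← hmul, mul_comm R PI]; exact Nat.mul_lt_mul_of_pos_left hj hPIpos
        have l2 : PI * j' < P := by
          rw [← hmul, mul_comm R PI]; exact Nat.mul_lt_mul_of_pos_left hj' hPIpos
        rw [Nat.mod_eq_of_lt l1, Nat.mod_eq_of_lt l2] at h2
        exact Nat.eq_of_mul_eq_mul_left hPIpos h2

lemma card_supp_eq_le (I : Finset ℕ) (hI : I ⊆ Q) :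
    ((univ : Finset (ZMod P)).filter (fun t => supp Q t = I)).card ≤ ∏ p ∈ I, p := by
  set R := ∏ p ∈ Q \ I, p with hR
  set PI := ∏ p ∈ I, p with hPI
  have hmul : R * PI = P := by
    rw [hP]; exact Finset.prod_sdiff hI
  have hPpos : 0 < P := Nat.pos_of_ne_zero (NeZero.ne P)
  have hRpos : 0 < R := by
    rcases Nat.eq_zero_or_pos R with h | h
    · rw [h, zero_mul] at hmul; omega
    · exact h
  have hdvd : ∀ t : ZMod P, supp Q t = I → R ∣ t.val := by
    intro t ht
    rw [hR, prod_primes_dvd_iff _ (fun p hp => hQ p (Finset.mem_sdiff.mp hp).1)]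
    intro p hp
    have hp' := Finset.mem_sdiff.mp hp
    by_contra hnd
    apply hp'.2
    rw [← ht]
    exact Finset.mem_filter.mpr ⟨hp'.1, hnd⟩
  calc ((univ : Finset (ZMod P)).filter (fun t => supp Q t = I)).card
      ≤ (Finset.range PI).card := by
        apply Finset.card_le_card_of_injOn (fun t => t.val / R)
        · intro t ht
          simp only [Finset.coe_filter, Finset.mem_univ, true_and, Set.mem_ofPred_eq] at ht
          simp only [Finset.coe_range, Set.mem_Iio]
          apply Nat.div_lt_of_lt_mul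
          rw [hmul]
          exact ZMod.val_lt t
        · intro t ht t' ht' h
          simp only [Finset.coe_filter, Finset.mem_univ, true_and, Set.mem_ofPred_eq] at ht ht'
          simp only at h
          apply ZMod.val_injective P
          rw [← Nat.div_mul_cancel (hdvd t ht), ← Nat.div_mul_cancel (hdvd t' ht'), h]
    _ = PI := Finset.card_range PI

lemma supp_ne_empty (t : ZMod P) (ht : t ≠ 0) : supp Q t ≠ ∅ := by
  intro h
  apply ht
  have h1 : P ∣ t.val := by
    have : (∏ p ∈ Q, p) ∣ t.val := by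
      rw [prod_primes_dvd_iff Q hQ]
      intro p hp
      by_contra hnd
      have : p ∈ supp Q t := Finset.mem_filter.mpr ⟨hp, hnd⟩
      rw [h] at this
      simp at this
    exact hP.symm ▸ this
  have h2 := Nat.eq_zero_of_dvd_of_lt h1 (ZMod.val_lt t)
  exact (ZMod.val_eq_zero t).mp h2

end

end Vale.Agent.Lib.P012
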