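import Vale.Agent.Lib.P012.Fourier1
import Vale.Agent.Lib.P012.Fourier3

namespace Vale.Agent.Lib.P012
open Finset

section
variable {P : ℕ} [NeZero P] (Q : Finset ℕ) (hQ : ∀ p ∈ Q, p.Prime) (hP : P = ∏ p ∈ Q, p)
include hQ hP

/-- bound for one bilinear factor in terms of the support of `t`. -/
lemma factor_bound (A B : Finset ℕ) (t : ZMod P) (c : ℕ) (hc : ∀ p ∈ Q, ¬ p ∣ c) :
    ‖∑ a ∈ A, ∑ b ∈ B, (ZMod.stdAddChar (t * (c : ZMod P) * (a : ZMod P) * (b : ZMod P)) : ℂ)‖ ^ 2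
      ≤ ((∏ p ∈ supp Q t, p : ℕ) : ℝ) * EE A (∏ p ∈ supp Q t, p) * EE B (∏ p ∈ supp Q t, p) := by
  have h1 := bilinear_bound A B (t * (c : ZMod P))
  rw [EZ_eq_EE Q hQ hP t c hc, EZ_eq_EE Q hQ hP t c hc] at h1
  have h2 := annCard_ge Q hQ hP t c hc
  have h3 := prod_supp_mul Q hQ hP t
  set R := ∏ p ∈ Q \ supp Q t, p with hR
  set PI := ∏ p ∈ supp Q t, p with hPI
  have hPpos : 0 < P := Nat.pos_of_ne_zero (NeZero.ne P)
  have hRpos : 0 < R := by
    rcases Nat.eq_zero_or_pos R with h | h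
    · rw [h, zero_mul] at h3; omega
    · exact h
  have hRpos' : (0 : ℝ) < R := by exact_mod_cast hRpos
  set F := ‖∑ a ∈ A, ∑ b ∈ B,
    (ZMod.stdAddChar (t * (c : ZMod P) * (a : ZMod P) * (b : ZMod P)) : ℂ)‖ ^ 2 with hF
  have hF0 : 0 ≤ F := by positivity
  have h4 : (R : ℝ) * F ≤ (R : ℝ) * ((PI : ℝ) * EE A PI * EE B PI) := by
    calc (R : ℝ) * F ≤ (annCard (t * (c : ZMod P)) : ℝ) * F := by
          apply mul_le_mul_of_nonneg_right _ hF0
          exact_mod_cast h2
      _ ≤ (P : ℝ) * EE A PI * EE B PI := h1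
      _ = (R : ℝ) * ((PI : ℝ) * EE A PI * EE B PI) := by
          rw [← h3]; push_cast; ring
  exact le_of_mul_le_mul_left h4 hRpos'

end

theorem covering (Q : Finset ℕ) (hQ : ∀ p ∈ Q, p.Prime) (A B : Finset ℕ) (c : Fin 4 → ℕ)
    (hc : ∀ i, ∀ p ∈ Q, ¬ p ∣ c i)
    (hsum : ∑ I ∈ Q.powerset.erase ∅,
        (∏ p ∈ I, p)^3 * (EE A (∏ p ∈ I, p))^2 * (EE B (∏ p ∈ I, p))^2
        < A.card^4 * B.card^4)
    (x : ℕ) : ∃ a b : Fin 4 → ℕ, (∀ i, a i ∈ A) ∧ (∀ i, b i ∈ B) ∧
      ∑ i, c i * a i * b i ≡ x [MOD ∏ p ∈ Q, p] := by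
  obtain ⟨P, hP⟩ : ∃ P, P = ∏ p ∈ Q, p := ⟨_, rfl⟩
  have hPpos : 0 < P := by
    rw [hP]; exact Finset.prod_pos (fun p hp => (hQ p hp).pos)
  have : NeZero P := ⟨hPpos.ne'⟩
  rw [← hP]
  set s : Finset (Fin 4 → ℕ × ℕ) := Fintype.piFinset (fun _ : Fin 4 => A ×ˢ B) with hs
  set v : (Fin 4 → ℕ × ℕ) → ZMod P :=
    fun f => ∑ i, (c i : ZMod P) * ((f i).1 : ZMod P) * ((f i).2 : ZMod P) with hv
  have hcard : s.card = A.card ^ 4 * B.card ^ 4 := by
    rw [hs, Fintype.card_piFinset]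
    simp [Finset.card_product, mul_pow]
  -- factorisation of the Fourier transform
  have hfac : ∀ t : ZMod P, ∑ f ∈ s, (ZMod.stdAddChar (t * v f) : ℂ)
      = ∏ i : Fin 4, ∑ a ∈ A, ∑ b ∈ B,
        (ZMod.stdAddChar (t * (c i : ZMod P) * (a : ZMod P) * (b : ZMod P)) : ℂ) := by
    intro t
    have h1 : ∀ i : Fin 4, ∑ a ∈ A, ∑ b ∈ B,
        (ZMod.stdAddChar (t * (c i : ZMod P) * (a : ZMod P) * (b : ZMod P)) : ℂ)
        = ∑ q ∈ A ×ˢ B,
          (ZMod.stdAddChar (t * ((c i : ZMod P) * (q.1 : ZMod P) * (q.2 : ZMod P))) : ℂ) := by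
      intro i
      rw [Finset.sum_product]
      apply Finset.sum_congr rfl; intro a _
      apply Finset.sum_congr rfl; intro b _
      congr 1; ring
    simp_rw [h1]
    rw [Finset.prod_univ_sum]
    apply Finset.sum_congr rfl; intro f _
    rw [hv]
    simp only
    rw [Finset.mul_sum, Fin.sum_univ_four, Fin.prod_univ_four, AddChar.map_add_eq_mul,
      AddChar.map_add_eq_mul, AddChar.map_add_eq_mul]
  -- the main estimate
  set G : Finset ℕ → ℝ := fun I =>
    (((∏ p ∈ I, p : ℕ) : ℝ) * EE A (∏ p ∈ I, p) * EE B (∏ p ∈ I, p)) ^ 2 with hG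
  have hG0 : ∀ I, 0 ≤ G I := fun I => by positivity
  have hbound : ∀ t : ZMod P, ‖∑ f ∈ s, (ZMod.stdAddChar (t * v f) : ℂ)‖ ≤ G (supp Q t) := by
    intro t
    rw [hfac t, norm_prod]
    set X0 : ℝ := ((∏ p ∈ supp Q t, p : ℕ) : ℝ) * EE A (∏ p ∈ supp Q t, p)
      * EE B (∏ p ∈ supp Q t, p) with hX0
    have hX0nn : 0 ≤ X0 := by positivity
    have h1 : ∀ i : Fin 4, ‖∑ a ∈ A, ∑ b ∈ B,
        (ZMod.stdAddChar (t * (c i : ZMod P) * (a : ZMod P) * (b : ZMod P)) : ℂ)‖
        ≤ Real.sqrt X0 := by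
      intro i
      apply Real.le_sqrt_of_sq_le
      exact factor_bound Q hQ hP A B t (c i) (hc i)
    calc ∏ i : Fin 4, ‖∑ a ∈ A, ∑ b ∈ B,
        (ZMod.stdAddChar (t * (c i : ZMod P) * (a : ZMod P) * (b : ZMod P)) : ℂ)‖
        ≤ ∏ _i : Fin 4, Real.sqrt X0 := by
          apply Finset.prod_le_prod
          · intro i _; positivity
          · intro i _; exact h1 i
      _ = (Real.sqrt X0) ^ 4 := by simp
      _ = X0 ^ 2 := by
          have : (Real.sqrt X0) ^ 4 = ((Real.sqrt X0) ^ 2) ^ 2 := by ring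
          rw [this, Real.sq_sqrt hX0nn]
  have hmain : ∑ t ∈ (univ : Finset (ZMod P)).erase 0,
      ‖∑ f ∈ s, (ZMod.stdAddChar (t * v f) : ℂ)‖ < s.card := by
    calc ∑ t ∈ (univ : Finset (ZMod P)).erase 0, ‖∑ f ∈ s, (ZMod.stdAddChar (t * v f) : ℂ)‖
        ≤ ∑ t ∈ (univ : Finset (ZMod P)).erase 0, G (supp Q t) :=
          Finset.sum_le_sum (fun t _ => hbound t)
      _ = ∑ I ∈ Q.powerset.erase ∅,
            ∑ t ∈ ((univ : Finset (ZMod P)).erase 0).filter (fun t => supp Q t = I),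
              G (supp Q t) := by
          rw [Finset.sum_fiberwise_of_maps_to]
          intro t ht
          rw [Finset.mem_erase]
          refine ⟨supp_ne_empty Q hQ hP t (Finset.ne_of_mem_erase ht), ?_⟩
          rw [Finset.mem_powerset]
          exact Finset.filter_subset _ _
      _ ≤ ∑ I ∈ Q.powerset.erase ∅, ((∏ p ∈ I, p : ℕ) : ℝ) * G I := by
          apply Finset.sum_le_sum
          intro I hI
          have hIQ : I ⊆ Q := Finset.mem_powerset.mp (Finset.mem_of_mem_erase hI)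
          have e1 : ∑ t ∈ ((univ : Finset (ZMod P)).erase 0).filter (fun t => supp Q t = I),
              G (supp Q t)
              = (((univ : Finset (ZMod P)).erase 0).filter (fun t => supp Q t = I)).card * G I := by
            rw [← nsmul_eq_mul, ← Finset.sum_const]
            apply Finset.sum_congr rfl
            intro t ht
            rw [(Finset.mem_filter.mp ht).2]
          rw [e1]
          apply mul_le_mul_of_nonneg_right _ (hG0 I)
          have e2 : (((univ : Finset (ZMod P)).erase 0).filter (fun t => supp Q t = I)).card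
              ≤ ((univ : Finset (ZMod P)).filter (fun t => supp Q t = I)).card := by
            apply Finset.card_le_card
            apply Finset.filter_subset_filter
            exact Finset.erase_subset _ _
          exact_mod_cast e2.trans (card_supp_eq_le Q hQ hP I hIQ)
      _ = ((∑ I ∈ Q.powerset.erase ∅,
            (∏ p ∈ I, p)^3 * (EE A (∏ p ∈ I, p))^2 * (EE B (∏ p ∈ I, p))^2 : ℕ) : ℝ) := by
          push_cast
          apply Finset.sum_congr rfl
          intro I _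
          rw [hG]
          push_cast
          ring
      _ < s.card := by
          rw [hcard]
          exact_mod_cast hsum
  obtain ⟨f, hf, hfx⟩ := exists_of_fourier s v (x : ZMod P) hmain
  refine ⟨fun i => (f i).1, fun i => (f i).2, ?_, ?_, ?_⟩
  · intro i
    have := (Fintype.mem_piFinset.mp hf) i
    exact (Finset.mem_product.mp this).1
  · intro i
    have := (Fintype.mem_piFinset.mp hf) i
    exact (Finset.mem_product.mp this).2
  · rw [← ZMod.natCast_eq_natCast_iff]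
    rw [← hfx, hv]
    push_cast
    rfl

end Vale.Agent.Lib.P012
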