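import Mathlib

/-!
# P012: basic definitions for the practical-number construction

`Good N h`: every `m ≤ N` is a sum of at most `h` distinct divisors of `N`.
`EE A D`: number of ordered pairs of `A` that are congruent modulo `D`.
`Coll A D`: number of ordered pairs of distinct elements of `A` congruent modulo `D`.
-/

namespace Vale.Agent.Lib.P012

open Finset

/-- every `m ≤ N` is a sum of at most `h` distinct divisors of `N`. -/
def Good (N h : ℕ) : Prop :=
  ∀ m ≤ N, ∃ S ⊆ N.divisors, S.card ≤ h ∧ ∑ d ∈ S, d = m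

/-- number of ordered pairs of `A` congruent modulo `D`. -/
def EE (A : Finset ℕ) (D : ℕ) : ℕ :=
  ((A ×ˢ A).filter (fun q => q.1 ≡ q.2 [MOD D])).card

/-- number of ordered pairs of distinct elements of `A` congruent modulo `D`. -/
def Coll (A : Finset ℕ) (D : ℕ) : ℕ :=
  ((A ×ˢ A).filter (fun q => q.1 ≠ q.2 ∧ q.1 ≡ q.2 [MOD D])).card

/-- the invariant of the construction: `N = 16 U V` with `U`, `V` odd and coprime, each having
exactly `2 ^ u` divisors, `N` not too large, and `Good N h`. -/
def Inv (u N h : ℕ) : Prop :=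
  ∃ U V : ℕ, N = 16 * U * V ∧ Nat.Coprime U V ∧ Odd U ∧ Odd V ∧
    U.divisors.card = 2 ^ u ∧ V.divisors.card = 2 ^ u ∧ N ≤ 2 ^ (4 * (u + 1) ^ 2) ∧ Good N h

end Vale.Agent.Lib.P012
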