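import Vale.Agent.Lib.P012.Main

namespace Vale.Agent.Lib.P012
open Finset

/-- arbitrarily large `N` with `Good N h` for some `h`. -/
theorem exists_good (b : ℕ) : ∃ N h, b ≤ N ∧ Good N h := by
  obtain ⟨h0, H⟩ := levels
  obtain ⟨u, N, h, hu, hinv, _⟩ := H (b + 11) (by omega)
  refine ⟨N, h, ?_, ?_⟩
  · have h1 : b + 11 < 2 ^ (b + 11) := Nat.lt_two_pow_self
    have h2 : u < 2 ^ u := Nat.lt_two_pow_self
    have h3 := le_of_inv hinv
    omega
  · obtain ⟨_, _, _, _, _, _, _, _, _, hg⟩ := hinv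
    exact hg

/-- every `a / b` with `1 ≤ a < b` has some representation. -/
theorem exists_rep (a b : ℕ) (ha : 1 ≤ a) (hab : a < b) :
    ∃ S : Finset ℕ, (∀ n ∈ S, 2 ≤ n) ∧ ∑ n ∈ S, (1 / (n : ℚ)) = (a : ℚ) / b := by
  obtain ⟨N, h, hbN, hg⟩ := exists_good b
  obtain ⟨S, h1, h2, _⟩ := rep_of_good hg ha hab hbN
  exact ⟨S, h1, h2⟩

/-- a representation of a positive fraction is nonempty. -/
theorem card_pos_of_rep {a b : ℕ} (ha : 1 ≤ a) (hab : a < b) {S : Finset ℕ}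
    (hS : ∑ n ∈ S, (1 / (n : ℚ)) = (a : ℚ) / b) : 1 ≤ S.card := by
  rcases Finset.eq_empty_or_nonempty S with h | h
  · exfalso
    rw [h, Finset.sum_empty] at hS
    have h1 : (0 : ℚ) < a := by exact_mod_cast ha
    have h2 : (0 : ℚ) < b := by exact_mod_cast (by omega : 0 < b)
    have : (0 : ℚ) < (a : ℚ) / b := div_pos h1 h2
    linarith
  · exact Finset.card_pos.mpr h

end Vale.Agent.Lib.P012
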