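import Vale.Agent.Lib.P012.RepOfGood

namespace Vale.Agent.Lib.P012

open Finset

theorem final_analysis (h0 : ℕ)
    (H : ∀ i ≥ 11, ∃ N h, 2^(2^i) ≤ N ∧ Good N h ∧ h ≤ h0 + 1000*(i+1)^2) :
    ∃ C : ℝ, ∃ b0 : ℕ, ∀ b ≥ b0, ∀ a, 1 ≤ a → a < b → ∃ S : Finset ℕ, (∀ n ∈ S, 2 ≤ n) ∧
      ∑ n ∈ S, (1/(n:ℚ)) = (a:ℚ)/b ∧ (S.card:ℝ) ≤ C * (Real.log (Real.log b))^2 := by
  refine ⟨2 * h0 + 8000, 2^(2^11), ?_⟩
  intro b hb a ha hab
  set k := Nat.clog 2 b with hk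
  set i := Nat.clog 2 k with hi
  have hbk : b ≤ 2 ^ k := Nat.le_pow_clog (by norm_num) b
  have hki : k ≤ 2 ^ i := Nat.le_pow_clog (by norm_num) k
  have hb1 : 1 < b := lt_of_lt_of_le (Nat.one_lt_two_pow (by positivity)) hb
  have hk11 : 2 ^ 11 ≤ k := by
    by_contra hcon
    have hlt : k < 2 ^ 11 := Nat.lt_of_not_ge hcon
    have : (2:ℕ) ^ k < 2 ^ (2 ^ 11) := Nat.pow_lt_pow_right (by norm_num) hlt
    omega
  have hi11 : 11 ≤ i := by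
    by_contra hcon
    have hlt : i < 11 := Nat.lt_of_not_ge hcon
    have : (2:ℕ) ^ i < 2 ^ 11 := Nat.pow_lt_pow_right (by norm_num) hlt
    omega
  have hk1 : 1 < k := lt_of_lt_of_le (by norm_num) hk11
  have h1 : 2 ^ (k - 1) < b := by
    have := Nat.pow_pred_clog_lt_self (b := 2) (by norm_num) hb1
    simpa [Nat.pred_eq_sub_one] using this
  have h2 : 2 ^ (i - 1) < k := by
    have := Nat.pow_pred_clog_lt_self (b := 2) (by norm_num) hk1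
    simpa [Nat.pred_eq_sub_one] using this
  obtain ⟨N, h, hN, hG, hh⟩ := H i hi11
  have hbN : b ≤ N := by
    calc b ≤ 2 ^ k := hbk
      _ ≤ 2 ^ (2 ^ i) := Nat.pow_le_pow_right (by norm_num) hki
      _ ≤ N := hN
  obtain ⟨S, hS2, hSs, hSc⟩ := rep_of_good hG ha hab hbN
  refine ⟨S, hS2, hSs, ?_⟩
  -- real analysis
  have hl2 : (0.6931471803 : ℝ) < Real.log 2 := Real.log_two_gt_d9
  have hbpos : (0:ℝ) < b := by exact_mod_cast (by omega : 0 < b)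
  -- log b > (k-1) log 2 ≥ 2^(i-1) log 2 ≥ 2^(i-2)
  have hlogb : ((k - 1 : ℕ) : ℝ) * Real.log 2 < Real.log b := by
    have : ((2 ^ (k - 1) : ℕ) : ℝ) < (b : ℝ) := by exact_mod_cast h1
    have h3 := Real.log_lt_log (by positivity) this
    rwa [Nat.cast_pow, Real.log_pow, Nat.cast_ofNat] at h3
  have hk2 : 2 ^ (i - 1) ≤ k - 1 := by omega
  have hk2r : ((2:ℝ) ^ (i - 1)) ≤ ((k - 1 : ℕ) : ℝ) := by exact_mod_cast hk2
  have hpow : (2:ℝ) ^ (i - 1) = 2 * 2 ^ (i - 2) := by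
    have : i - 1 = (i - 2) + 1 := by omega
    rw [this, pow_succ]; ring
  have hlogb2 : (2:ℝ) ^ (i - 2) < Real.log b := by
    have hp : (0:ℝ) < 2 ^ (i - 2) := by positivity
    calc (2:ℝ) ^ (i - 2) ≤ (2 * 2 ^ (i - 2)) * Real.log 2 := by nlinarith
      _ = (2:ℝ) ^ (i - 1) * Real.log 2 := by rw [hpow]
      _ ≤ ((k - 1 : ℕ) : ℝ) * Real.log 2 := by
          apply mul_le_mul_of_nonneg_right hk2r (by linarith)
      _ < Real.log b := hlogb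
  have hloglog : ((i - 2 : ℕ) : ℝ) * Real.log 2 < Real.log (Real.log b) := by
    have h3 := Real.log_lt_log (by positivity) hlogb2
    rwa [Real.log_pow] at h3
  have hi2 : ((i - 2 : ℕ) : ℝ) = (i : ℝ) - 2 := by
    rw [Nat.cast_sub (by omega)]; norm_num
  have hir : (11 : ℝ) ≤ (i : ℝ) := by exact_mod_cast hi11
  set x := Real.log (Real.log b) with hx
  have hx1 : (i : ℝ) + 1 ≤ 2 * x := by
    rw [hi2] at hloglog
    nlinarith
  have hx0 : (1:ℝ) ≤ x := by linarith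
  have hcard : (S.card : ℝ) ≤ 2 * h0 + 2000 * ((i:ℝ) + 1) ^ 2 := by
    have : S.card ≤ 2 * (h0 + 1000 * (i + 1) ^ 2) := by omega
    have h4 : (S.card : ℝ) ≤ ((2 * (h0 + 1000 * (i + 1) ^ 2) : ℕ) : ℝ) := by exact_mod_cast this
    push_cast at h4
    linarith
  have hsq : ((i:ℝ) + 1) ^ 2 ≤ 4 * x ^ 2 := by nlinarith
  have hx2 : (1:ℝ) ≤ x ^ 2 := by nlinarith
  have hh0 : (0:ℝ) ≤ (h0 : ℝ) := Nat.cast_nonneg _
  calc (S.card : ℝ) ≤ 2 * h0 + 2000 * ((i:ℝ) + 1) ^ 2 := hcard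
    _ ≤ 2 * h0 * x ^ 2 + 8000 * x ^ 2 := by nlinarith
    _ = (2 * h0 + 8000) * x ^ 2 := by ring

end Vale.Agent.Lib.P012
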