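import Vale.Agent.Lib.P012.Defs

namespace Vale.Agent.Lib.P012
open Finset

/-- If the nontrivial Fourier coefficients of the multiset `v '' s` are small in total, then
`v` hits every residue. -/
lemma exists_of_fourier {P : ℕ} [NeZero P] {T : Type*} (s : Finset T) (v : T → ZMod P) (x : ZMod P)
    (h : ∑ t ∈ (univ : Finset (ZMod P)).erase 0,
      ‖∑ τ ∈ s, (ZMod.stdAddChar (t * v τ) : ℂ)‖ < s.card) :
    ∃ τ ∈ s, v τ = x := by
  by_contra hne
  push Not at hne
  have h0 : ∑ t : ZMod P, (ZMod.stdAddChar (-(t * x)) : ℂ) * ∑ τ ∈ s, ZMod.stdAddChar (t * v τ)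
      = 0 := by
    simp_rw [Finset.mul_sum]
    rw [Finset.sum_comm]
    apply Finset.sum_eq_zero
    intro τ hτ
    have : ∀ t : ZMod P, (ZMod.stdAddChar (-(t*x)) : ℂ) * ZMod.stdAddChar (t * v τ)
        = ZMod.stdAddChar (t * (v τ - x)) := by
      intro t; rw [← AddChar.map_add_eq_mul]; congr 1; ring
    simp_rw [this]
    rw [AddChar.sum_mulShift _ (ZMod.isPrimitive_stdAddChar P)]
    simp [sub_eq_zero, hne τ hτ]
  rw [← Finset.add_sum_erase _ _ (Finset.mem_univ (0 : ZMod P))] at h0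
  simp only [zero_mul, neg_zero, AddChar.map_zero_eq_one, one_mul, sum_const, nsmul_eq_mul,
    mul_one] at h0
  have h1 : (s.card : ℂ) = - ∑ t ∈ (univ : Finset (ZMod P)).erase 0,
      (ZMod.stdAddChar (-(t * x)) : ℂ) * ∑ τ ∈ s, ZMod.stdAddChar (t * v τ) := by
    linear_combination h0
  have h2 : (s.card : ℝ) ≤ ∑ t ∈ (univ : Finset (ZMod P)).erase 0,
      ‖∑ τ ∈ s, (ZMod.stdAddChar (t * v τ) : ℂ)‖ := by
    calc (s.card : ℝ) = ‖(s.card : ℂ)‖ := by simp
      _ = ‖∑ t ∈ (univ : Finset (ZMod P)).erase 0,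
          (ZMod.stdAddChar (-(t * x)) : ℂ) * ∑ τ ∈ s, ZMod.stdAddChar (t * v τ)‖ := by
          rw [h1, norm_neg]
      _ ≤ ∑ t ∈ (univ : Finset (ZMod P)).erase 0,
          ‖(ZMod.stdAddChar (-(t * x)) : ℂ) * ∑ τ ∈ s, ZMod.stdAddChar (t * v τ)‖ :=
          norm_sum_le _ _
      _ = _ := by
          apply Finset.sum_congr rfl
          intro t _
          rw [norm_mul, AddChar.norm_apply, one_mul]
  linarith

end Vale.Agent.Lib.P012
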