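import Vale.Agent.Lib.P012.Defs

namespace Vale.Agent.Lib.P012
open Finset

/-- pairs of `A` identified by multiplication by `τ` in `ZMod P`. -/
def EZ {P : ℕ} (A : Finset ℕ) (τ : ZMod P) : ℕ :=
  ((A ×ˢ A).filter (fun q => τ * ((q.1 : ZMod P) - (q.2 : ZMod P)) = 0)).card

/-- size of the annihilator of `τ`. -/
def annCard {P : ℕ} [NeZero P] (τ : ZMod P) : ℕ :=
  ((univ : Finset (ZMod P)).filter (fun s => τ * s = 0)).card

section
variable {P : ℕ} [NeZero P]

lemma sum_shift_ite {R : Type*} [Semiring R] (τ a : ZMod P) (c : R) :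
    ∑ s : ZMod P, (if τ * (s - a) = 0 then c else 0) = annCard τ * c := by
  have := Equiv.sum_comp (Equiv.subRight a) (fun s => if τ * s = 0 then c else 0)
  simp only [Equiv.subRight_apply] at this
  rw [this, ← Finset.sum_filter, Finset.sum_const, nsmul_eq_mul, annCard]

lemma sum_norm_sq (B : Finset ℕ) (τ : ZMod P) :
    ∑ s : ZMod P, ‖∑ b ∈ B, (ZMod.stdAddChar (τ * s * (b : ZMod P)) : ℂ)‖ ^ 2 = P * EZ B τ := by
  have h1 : ∀ s : ZMod P, ((‖∑ b ∈ B, (ZMod.stdAddChar (τ * s * (b : ZMod P)) : ℂ)‖ ^ 2 : ℝ) : ℂ)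
      = ∑ q ∈ B ×ˢ B, (ZMod.stdAddChar (s * (τ * ((q.1 : ZMod P) - (q.2 : ZMod P)))) : ℂ) := by
    intro s
    rw [Complex.ofReal_pow, ← Complex.mul_conj', map_sum, Finset.sum_mul_sum, Finset.sum_product]
    apply Finset.sum_congr rfl; intro b _
    apply Finset.sum_congr rfl; intro b' _
    rw [← AddChar.map_neg_eq_conj, ← AddChar.map_add_eq_mul]
    congr 1; ring
  have h2 : ((∑ s : ZMod P, ‖∑ b ∈ B, (ZMod.stdAddChar (τ * s * (b : ZMod P)) : ℂ)‖ ^ 2 : ℝ) : ℂ)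
      = ((P * EZ B τ : ℝ) : ℂ) := by
    rw [Complex.ofReal_sum]
    simp_rw [h1]
    rw [Finset.sum_comm]
    simp_rw [AddChar.sum_mulShift _ (ZMod.isPrimitive_stdAddChar P)]
    simp only [Nat.cast_ite, Nat.cast_zero]
    rw [← Finset.sum_filter, Finset.sum_const, nsmul_eq_mul, EZ, ZMod.card]
    push_cast
    ring
  exact_mod_cast h2

/-- multiplicity function: number of `a ∈ A` with `τ * s = τ * a`. -/
noncomputable def mu (A : Finset ℕ) (τ s : ZMod P) : ℝ :=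
  ∑ a ∈ A, if τ * (s - (a : ZMod P)) = 0 then 1 else 0

lemma mu_nonneg (A : Finset ℕ) (τ s : ZMod P) : 0 ≤ mu A τ s := by
  unfold mu
  apply Finset.sum_nonneg
  intro a _
  split_ifs <;> norm_num

lemma sum_mu_sq (A : Finset ℕ) (τ : ZMod P) :
    ∑ s : ZMod P, (mu A τ s) ^ 2 = annCard τ * EZ A τ := by
  unfold mu
  simp_rw [sq, Finset.sum_mul_sum]
  rw [Finset.sum_comm]
  have key : ∀ a a' : ℕ, ∑ s : ZMod P, ((if τ * (s - (a : ZMod P)) = 0 then (1 : ℝ) else 0) *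
      (if τ * (s - (a' : ZMod P)) = 0 then (1 : ℝ) else 0))
      = if τ * ((a : ZMod P) - (a' : ZMod P)) = 0 then (annCard τ : ℝ) else 0 := by
    intro a a'
    by_cases h : τ * ((a : ZMod P) - (a' : ZMod P)) = 0
    · rw [if_pos h]
      have : ∀ s : ZMod P, ((if τ * (s - (a : ZMod P)) = 0 then (1 : ℝ) else 0) *
          (if τ * (s - (a' : ZMod P)) = 0 then (1 : ℝ) else 0))
          = if τ * (s - (a : ZMod P)) = 0 then (1 : ℝ) else 0 := by
        intro s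
        have e : τ * (s - (a' : ZMod P)) = τ * (s - (a : ZMod P)) + τ * ((a : ZMod P) - a') := by
          ring
        rw [e, h, add_zero]
        split_ifs <;> norm_num
      simp_rw [this]
      rw [sum_shift_ite, mul_one]
    · rw [if_neg h]
      apply Finset.sum_eq_zero
      intro s _
      by_cases h1 : τ * (s - (a : ZMod P)) = 0
      · have h2 : τ * (s - (a' : ZMod P)) ≠ 0 := by
          intro h2
          apply h
          have e : τ * ((a : ZMod P) - a') = τ * (s - (a' : ZMod P)) - τ * (s - (a : ZMod P)) := by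
            ring
          rw [e, h1, h2, sub_zero]
        rw [if_neg h2, mul_zero]
      · rw [if_neg h1, zero_mul]
  calc ∑ a ∈ A, ∑ s : ZMod P, ∑ a' ∈ A, ((if τ * (s - (a : ZMod P)) = 0 then (1 : ℝ) else 0) *
      (if τ * (s - (a' : ZMod P)) = 0 then (1 : ℝ) else 0))
      = ∑ a ∈ A, ∑ a' ∈ A, if τ * ((a : ZMod P) - (a' : ZMod P)) = 0
          then (annCard τ : ℝ) else 0 := by
        apply Finset.sum_congr rfl; intro a _
        rw [Finset.sum_comm]
        apply Finset.sum_congr rfl; intro a' _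
        exact key a a'
    _ = annCard τ * EZ A τ := by
        rw [← Finset.sum_product', ← Finset.sum_filter, Finset.sum_const, nsmul_eq_mul, EZ]
        ring

lemma sum_mu_mul (A B : Finset ℕ) (τ : ZMod P) :
    ∑ s : ZMod P, (mu A τ s : ℂ) * ∑ b ∈ B, (ZMod.stdAddChar (τ * s * (b : ZMod P)) : ℂ)
      = annCard τ * ∑ a ∈ A, ∑ b ∈ B, (ZMod.stdAddChar (τ * (a : ZMod P) * (b : ZMod P)) : ℂ) := by
  unfold mu
  push_cast
  simp_rw [Finset.sum_mul]
  rw [Finset.sum_comm, Finset.mul_sum]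
  apply Finset.sum_congr rfl; intro a _
  have : ∀ s : ZMod P, (((if τ * (s - (a : ZMod P)) = 0 then (1 : ℝ) else 0) : ℝ) : ℂ) *
      ∑ b ∈ B, (ZMod.stdAddChar (τ * s * (b : ZMod P)) : ℂ)
      = if τ * (s - (a : ZMod P)) = 0 then
        ∑ b ∈ B, (ZMod.stdAddChar (τ * (a : ZMod P) * (b : ZMod P)) : ℂ) else 0 := by
    intro s
    by_cases h : τ * (s - (a : ZMod P)) = 0
    · rw [if_pos h, if_pos h, Complex.ofReal_one, one_mul]
      apply Finset.sum_congr rfl; intro b _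
      congr 1
      have e : τ * s * (b : ZMod P) = τ * (a : ZMod P) * b + τ * (s - (a : ZMod P)) * b := by ring
      rw [e, h, zero_mul, add_zero]
    · rw [if_neg h, if_neg h, Complex.ofReal_zero, zero_mul]
  rw [Finset.sum_congr rfl (fun s _ => this s), sum_shift_ite]

lemma annCard_pos (τ : ZMod P) : 0 < annCard τ := by
  unfold annCard
  apply Finset.card_pos.mpr
  exact ⟨0, by simp⟩

/-- the bilinear exponential sum bound. -/
lemma bilinear_bound (A B : Finset ℕ) (τ : ZMod P) :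
    (annCard τ : ℝ) *
      ‖∑ a ∈ A, ∑ b ∈ B, (ZMod.stdAddChar (τ * (a : ZMod P) * (b : ZMod P)) : ℂ)‖ ^ 2
      ≤ P * EZ A τ * EZ B τ := by
  set F : ℂ := ∑ a ∈ A, ∑ b ∈ B, (ZMod.stdAddChar (τ * (a : ZMod P) * (b : ZMod P)) : ℂ) with hF
  set f : ZMod P → ℂ := fun s => ∑ b ∈ B, (ZMod.stdAddChar (τ * s * (b : ZMod P)) : ℂ) with hf
  have hg : (0 : ℝ) < annCard τ := by exact_mod_cast annCard_pos τ
  have h1 : (annCard τ : ℝ) * ‖F‖ ≤ ∑ s : ZMod P, mu A τ s * ‖f s‖ := by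
    have := sum_mu_mul A B τ
    calc (annCard τ : ℝ) * ‖F‖ = ‖(annCard τ : ℂ) * F‖ := by simp
      _ = ‖∑ s : ZMod P, (mu A τ s : ℂ) * f s‖ := by rw [← this]
      _ ≤ ∑ s : ZMod P, ‖(mu A τ s : ℂ) * f s‖ := norm_sum_le _ _
      _ = ∑ s : ZMod P, mu A τ s * ‖f s‖ := by
          apply Finset.sum_congr rfl; intro s _
          rw [norm_mul, Complex.norm_real, Real.norm_of_nonneg (mu_nonneg A τ s)]
  have h2 : (∑ s : ZMod P, mu A τ s * ‖f s‖) ^ 2
      ≤ (∑ s : ZMod P, (mu A τ s) ^ 2) * ∑ s : ZMod P, ‖f s‖ ^ 2 :=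
    Finset.sum_mul_sq_le_sq_mul_sq _ _ _
  rw [sum_mu_sq, sum_norm_sq] at h2
  have h3 : ((annCard τ : ℝ) * ‖F‖) ^ 2 ≤ (annCard τ * EZ A τ) * (P * EZ B τ) := by
    refine le_trans ?_ h2
    apply pow_le_pow_left₀ _ h1
    positivity
  have h4 : (annCard τ : ℝ) * ((annCard τ : ℝ) * ‖F‖ ^ 2)
      ≤ (annCard τ : ℝ) * (P * EZ A τ * EZ B τ) := by
    calc (annCard τ : ℝ) * ((annCard τ : ℝ) * ‖F‖ ^ 2) = ((annCard τ : ℝ) * ‖F‖) ^ 2 := by ring
      _ ≤ ((annCard τ : ℝ) * EZ A τ) * (P * EZ B τ) := h3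
      _ = (annCard τ : ℝ) * (P * EZ A τ * EZ B τ) := by ring
  exact le_of_mul_le_mul_left h4 hg

end

end Vale.Agent.Lib.P012
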