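import Vale.Agent.Lib.P012.Defs

namespace Vale.Agent.Lib.P012

open Finset

theorem good_step {N h P k : ℕ} (hN : Good N h) (hcop : Nat.Coprime N P) (hP : 0 < P)
    (hcov : ∀ x : ℕ, ∃ D ⊆ N.divisors, D.card ≤ k ∧ ∑ d ∈ D, d ≤ N ∧ (∑ d ∈ D, d) ≡ x [MOD P]) :
    Good (N * P) (h + k) := by
  intro m hm
  rcases Nat.eq_zero_or_pos N with hN0 | hNpos
  · subst hN0
    have : m = 0 := by simpa using hm
    subst this
    exact ⟨∅, by simp, by simp, by simp⟩
  have hNP : N * P ≠ 0 := by positivity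
  by_cases hmN : m ≤ N
  · obtain ⟨S, hS, hc, hs⟩ := hN m hmN
    refine ⟨S, ?_, by omega, hs⟩
    intro d hd
    have := hS hd
    rw [Nat.mem_divisors] at this ⊢
    exact ⟨Dvd.dvd.mul_right this.1 P, hNP⟩
  · have hmN : N < m := Nat.lt_of_not_ge hmN
    have hP1 : 1 < P := by
      by_contra hcon
      have : P = 1 := by omega
      subst this
      omega
    obtain ⟨D, hD, hDc, hDs, hDm⟩ := hcov m
    have hle : ∑ d ∈ D, d ≤ m := by omega
    have hdvd : P ∣ m - ∑ d ∈ D, d := (Nat.modEq_iff_dvd' hle).mp hDm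
    obtain ⟨q, hq⟩ := hdvd
    have hqN : q ≤ N := by
      have h1 : P * q ≤ N * P := by omega
      have h2 : P * q ≤ P * N := by rwa [Nat.mul_comm N P] at h1
      exact Nat.le_of_mul_le_mul_left h2 hP
    obtain ⟨S, hS, hSc, hSs⟩ := hN q hqN
    have hinj : Set.InjOn (fun d => P * d) (S : Set ℕ) := by
      intro a _ b _ hab
      exact Nat.eq_of_mul_eq_mul_left hP hab
    have hdisj : Disjoint D (S.image (fun d => P * d)) := by
      rw [Finset.disjoint_left]
      intro d hdD hdS
      rw [Finset.mem_image] at hdS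
      obtain ⟨e, _, rfl⟩ := hdS
      have h1 : P * e ∣ N := (Nat.mem_divisors.mp (hD hdD)).1
      have h2 : P ∣ N := Dvd.dvd.trans (Dvd.intro e rfl) h1
      have h3 : P ∣ Nat.gcd N P := Nat.dvd_gcd h2 dvd_rfl
      rw [hcop] at h3
      have := Nat.le_of_dvd one_pos h3
      omega
    refine ⟨D ∪ S.image (fun d => P * d), ?_, ?_, ?_⟩
    · intro d hd
      rw [Finset.mem_union] at hd
      rw [Nat.mem_divisors]
      rcases hd with hd | hd
      · exact ⟨Dvd.dvd.mul_right (Nat.mem_divisors.mp (hD hd)).1 P, hNP⟩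
      · rw [Finset.mem_image] at hd
        obtain ⟨e, he, rfl⟩ := hd
        refine ⟨?_, hNP⟩
        rw [Nat.mul_comm N P]
        exact Nat.mul_dvd_mul_left P (Nat.mem_divisors.mp (hS he)).1
    · calc (D ∪ S.image (fun d => P * d)).card ≤ D.card + (S.image (fun d => P * d)).card :=
            Finset.card_union_le _ _
        _ ≤ k + S.card := Nat.add_le_add hDc Finset.card_image_le
        _ ≤ h + k := by omega
    · rw [Finset.sum_union hdisj, Finset.sum_image hinj, ← Finset.mul_sum, hSs, ← hq]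
      omega

end Vale.Agent.Lib.P012
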