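import Vale.Agent.Lib.P012.MainStep
import Vale.Agent.Lib.P012.BaseCase
import Vale.Agent.Lib.P012.FinalAnalysis

namespace Vale.Agent.Lib.P012
open Finset

lemma level_up {i u N h : ℕ} (hi : 11 ≤ i) (hu : 2^i ≤ u) (hinv : Inv u N h) :
    ∃ u' N' h', 2^(i+1) ≤ u' ∧ Inv u' N' h' ∧ h' ≤ h + 4 * (2 * (96 * i + 241)) := by
  have claim : ∀ j : ℕ, ∃ u' N' h', (2^(i+1) ≤ u' ∨ 2^i + j * rho i ≤ u') ∧ Inv u' N' h' ∧
      h' ≤ h + 4 * j := by
    intro j
    induction j with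
    | zero => exact ⟨u, N, h, Or.inr (by simpa using hu), hinv, by omega⟩
    | succ j ih =>
      obtain ⟨u', N', h', hor, hinv', hh'⟩ := ih
      by_cases hbig : 2^(i+1) ≤ u'
      · exact ⟨u', N', h', Or.inl hbig, hinv', by omega⟩
      · have hlt : u' < 2^(i+1) := by omega
        have hge : 2^i + j * rho i ≤ u' := by
          rcases hor with h1 | h1
          · exact absurd h1 hbig
          · exact h1
        obtain ⟨N'', hinv''⟩ := main_step hi (by omega) hlt hinv'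
        refine ⟨u' + rho i, N'', h' + 4, Or.inr ?_, hinv'', by omega⟩
        have : (j + 1) * rho i = j * rho i + rho i := by ring
        omega
  obtain ⟨u', N', h', hor, hinv', hh'⟩ := claim (2 * (96 * i + 241))
  refine ⟨u', N', h', ?_, hinv', hh'⟩
  rcases hor with h1 | h1
  · exact h1
  · have hpos : 0 < rho i := rho_pos hi
    have h2 : 2 ^ i < (96 * i + 241) * (2 ^ i / (96 * i + 241) + 1) :=
      Nat.lt_mul_div_succ _ (by omega)
    have h3 : (96 * i + 241) * (rho i + 1) ≤ 2 * (96 * i + 241) * rho i := by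
      have : rho i + 1 ≤ 2 * rho i := by omega
      calc (96 * i + 241) * (rho i + 1) ≤ (96 * i + 241) * (2 * rho i) :=
            Nat.mul_le_mul_left _ this
        _ = 2 * (96 * i + 241) * rho i := by ring
    have h4 : 2 ^ i < (96 * i + 241) * (rho i + 1) := h2
    rw [pow_succ]
    omega

lemma levels : ∃ h0 : ℕ, ∀ i ≥ 11, ∃ u N h, 2^i ≤ u ∧ Inv u N h ∧ h ≤ h0 + 1000 * (i + 1)^2 := by
  obtain ⟨N0, h0, hinv0⟩ := base_case (2 ^ 11)
  refine ⟨h0, ?_⟩
  intro i hi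
  induction i, hi using Nat.le_induction with
  | base => exact ⟨2 ^ 11, N0, h0, le_rfl, hinv0, by omega⟩
  | succ k hk ih =>
    obtain ⟨u, N, h, hu, hinv, hh⟩ := ih
    obtain ⟨u', N', h', hu', hinv', hh'⟩ := level_up hk hu hinv
    refine ⟨u', N', h', hu', hinv', ?_⟩
    have : 1000 * (k + 1 + 1) ^ 2 = 1000 * (k + 1) ^ 2 + 2000 * k + 3000 := by ring
    omega

lemma le_of_inv {u N h : ℕ} (hinv : Inv u N h) : 2 ^ u ≤ N := by
  obtain ⟨U, V, hN, _, hU, hV, hUc, _, _, _⟩ := hinv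
  have hUpos : 0 < U := hU.pos
  have hVpos : 0 < V := hV.pos
  have h1 : 2 ^ u ≤ U := by rw [← hUc]; exact Nat.card_divisors_le_self U
  have h2 : U ≤ N := by rw [hN]; nlinarith
  omega

theorem main_theorem : ∃ C : ℝ, ∃ b0 : ℕ, ∀ b ≥ b0, ∀ a, 1 ≤ a → a < b →
    ∃ S : Finset ℕ, (∀ n ∈ S, 2 ≤ n) ∧
      ∑ n ∈ S, (1/(n:ℚ)) = (a:ℚ)/b ∧ (S.card:ℝ) ≤ C * (Real.log (Real.log b))^2 := by
  obtain ⟨h0, H⟩ := levels
  apply final_analysis h0
  intro i hi
  obtain ⟨u, N, h, hu, hinv, hh⟩ := H i hi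
  refine ⟨N, h, ?_, ?_, hh⟩
  · exact (Nat.pow_le_pow_right (by norm_num) hu).trans (le_of_inv hinv)
  · obtain ⟨_, _, _, _, _, _, _, _, _, hg⟩ := hinv
    exact hg

end Vale.Agent.Lib.P012
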