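import Vale.Agent.Lib.P012.Defs

/-!
# P012, Part E1: numerics (per-`I` collision bounds imply the hypothesis of the covering lemma)
-/

namespace Vale.Agent.Lib.P012

open Finset

lemma EE_eq (A : Finset ℕ) (D : ℕ) : EE A D = A.card + Coll A D := by
  unfold EE Coll
  have h := Finset.card_filter_add_card_filter_not
    (s := (A ×ˢ A).filter (fun q => q.1 ≡ q.2 [MOD D])) (fun q : ℕ × ℕ => q.1 = q.2)
  rw [← h]
  congr 1
  · rw [← Finset.diag_card A]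
    congr 1
    ext q
    simp only [mem_filter, mem_product, mem_diag]
    constructor
    · rintro ⟨⟨⟨h1, _⟩, _⟩, h3⟩; exact ⟨h1, h3⟩
    · rintro ⟨h1, h3⟩; exact ⟨⟨⟨h1, h3 ▸ h1⟩, h3 ▸ Nat.ModEq.refl _⟩, h3⟩
  · congr 1
    ext q
    simp only [mem_filter, mem_product]
    tauto

lemma one_add_pow_le (η : ℝ) (hη : 0 ≤ η) (m : ℕ) (h : 2 * m * η ≤ 1) :
    (1 + η) ^ m ≤ 1 + 2 * m * η := by
  have key : ∀ j ≤ m, (1 + η) ^ j ≤ 1 + 2 * j * η := by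
    intro j
    induction j with
    | zero => intro _; simp
    | succ j ih =>
      intro hj
      have h1 := ih (by omega)
      have hjm : (j : ℝ) ≤ m := by exact_mod_cast (by omega : j ≤ m)
      have h2 : 2 * (j : ℝ) * η ≤ 1 := le_trans (by gcongr) h
      calc (1 + η) ^ (j + 1) = (1 + η) ^ j * (1 + η) := pow_succ _ _
        _ ≤ (1 + 2 * j * η) * (1 + η) := by gcongr
        _ = 1 + 2 * j * η + η + (2 * j * η) * η := by ring
        _ ≤ 1 + 2 * j * η + η + 1 * η := by gcongr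
        _ = 1 + 2 * ((j + 1 : ℕ) : ℝ) * η := by push_cast; ring
  exact key m le_rfl

lemma add_pow_four_le (a b : ℝ) : (a + b) ^ 4 ≤ 8 * a ^ 4 + 8 * b ^ 4 := by
  nlinarith [sq_nonneg (a - b), sq_nonneg (a + b), sq_nonneg (a ^ 2 - b ^ 2),
    sq_nonneg (a ^ 2 + b ^ 2 + 4 * a * b), mul_nonneg (sq_nonneg (a - b)) (sq_nonneg (a + b)),
    mul_nonneg (sq_nonneg (a - b)) (sq_nonneg (a - b))]

theorem numerics (Q A B : Finset ℕ) (σ m L n : ℕ) (hQm : Q.card = m) (hQY : ∀ p ∈ Q, p ≤ 2^(8*σ))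
    (hA : A.card = n) (hB : B.card = n) (hn : 0 < n)
    (hcoll : ∀ I ⊆ Q, (Coll A (∏ p ∈ I, p) + Coll B (∏ p ∈ I, p)) * (2^(7*σ))^I.card
        ≤ 3 * (A.card^2 + B.card^2) * (m * L)^I.card)
    (H1 : 41472 * m^5 * L^4 < 2^(4*σ))
    (H2 : 16 * 2^m * (2^(8*σ))^(3*m) ≤ n^4) :
    ∑ I ∈ Q.powerset.erase ∅, (∏ p ∈ I, p)^3 * (EE A (∏ p ∈ I, p))^2 * (EE B (∏ p ∈ I, p))^2
        < A.card^4 * B.card^4 := by
  rw [hA, hB]
  have hnR : (0 : ℝ) < n := by exact_mod_cast hn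
  set Y : ℝ := 2 ^ (8 * σ) with hY
  set T : ℝ := 2 ^ (7 * σ) with hT
  set W : ℝ := 2 ^ (4 * σ) with hW
  have hY1 : 1 ≤ Y := one_le_pow₀ (by norm_num)
  have hTpos : 0 < T := by positivity
  have hWpos : 0 < W := by positivity
  have hYTW : Y ^ 3 * W = T ^ 4 := by
    rw [hY, hT, hW, ← pow_mul, ← pow_mul, ← pow_add]; congr 1; ring
  set η : ℝ := ((m : ℝ) * L) ^ 4 / W with hη
  have hη0 : 0 ≤ η := by positivity
  have H1R : 41472 * (m : ℝ) ^ 5 * (L : ℝ) ^ 4 < W := by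
    rw [hW]; exact_mod_cast H1
  have H2R : 16 * (2 : ℝ) ^ m * Y ^ (3 * m) ≤ (n : ℝ) ^ 4 := by
    rw [hY]; exact_mod_cast H2
  have hmη : 41472 * ((m : ℝ) * η) < 1 := by
    rw [hη]
    have : 41472 * ((m : ℝ) * (((m : ℝ) * L) ^ 4 / W)) = (41472 * (m : ℝ) ^ 5 * (L : ℝ) ^ 4) / W := by
      ring
    rw [this, div_lt_one hWpos]
    exact H1R
  -- bound for each term
  have hterm : ∀ I ∈ Q.powerset.erase ∅,
      (((∏ p ∈ I, p)^3 * (EE A (∏ p ∈ I, p))^2 * (EE B (∏ p ∈ I, p))^2 : ℕ) : ℝ)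
        ≤ 8 * (n : ℝ) ^ 4 * Y ^ (3 * m) + 10368 * (n : ℝ) ^ 8 * η ^ I.card := by
    intro I hI
    have hIQ : I ⊆ Q := mem_powerset.mp (mem_of_mem_erase hI)
    set k := I.card with hk
    have hkm : k ≤ m := hQm ▸ card_le_card hIQ
    set P : ℕ := ∏ p ∈ I, p with hP
    have hPY : (P : ℝ) ≤ Y ^ k := by
      have h1 : P ≤ (2 ^ (8 * σ)) ^ k := Finset.prod_le_pow_card _ _ _ (fun p hp => hQY p (hIQ hp))
      rw [hY]; exact_mod_cast h1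
    have hc := hcoll I hIQ
    rw [hA, hB] at hc
    have hcR : ((Coll A P : ℝ) + (Coll B P : ℝ)) * T ^ k ≤ 6 * (n : ℝ) ^ 2 * ((m : ℝ) * L) ^ k := by
      have : (((Coll A P + Coll B P) * (2 ^ (7 * σ)) ^ k : ℕ) : ℝ)
          ≤ ((3 * (n ^ 2 + n ^ 2) * (m * L) ^ k : ℕ) : ℝ) := by exact_mod_cast hc
      push_cast at this
      rw [hT]
      linarith
    set x : ℝ := 6 * (n : ℝ) ^ 2 * ((m : ℝ) * L) ^ k / T ^ k with hx
    have hx0 : 0 ≤ x := by positivity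
    have hTk : 0 < T ^ k := by positivity
    have hsum : (Coll A P : ℝ) + (Coll B P : ℝ) ≤ x := by
      rw [hx, le_div_iff₀ hTk]; exact hcR
    have hcA0 : (0 : ℝ) ≤ Coll A P := Nat.cast_nonneg _
    have hcB0 : (0 : ℝ) ≤ Coll B P := Nat.cast_nonneg _
    have hEA : (EE A P : ℝ) ≤ n + x := by
      rw [EE_eq, hA]; push_cast; linarith
    have hEB : (EE B P : ℝ) ≤ n + x := by
      rw [EE_eq, hB]; push_cast; linarith
    have hEA0 : (0 : ℝ) ≤ EE A P := Nat.cast_nonneg _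
    have hEB0 : (0 : ℝ) ≤ EE B P := Nat.cast_nonneg _
    have hP0 : (0 : ℝ) ≤ P := Nat.cast_nonneg _
    have hx4 : Y ^ (3 * k) * x ^ 4 = 1296 * (n : ℝ) ^ 8 * η ^ k := by
      rw [hx, hη, div_pow, div_pow, ← pow_mul T, mul_comm k 4, pow_mul T, ← hYTW]
      have hYk : Y ^ (3 * k) = (Y ^ 3) ^ k := pow_mul _ _ _
      rw [hYk, mul_pow (Y ^ 3) W k]
      have hY3 : (Y ^ 3) ^ k ≠ 0 := by positivity
      have hWk : W ^ k ≠ 0 := by positivity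
      field_simp
      ring
    push_cast
    calc (P : ℝ) ^ 3 * (EE A P : ℝ) ^ 2 * (EE B P : ℝ) ^ 2
        ≤ (Y ^ k) ^ 3 * ((n : ℝ) + x) ^ 2 * ((n : ℝ) + x) ^ 2 := by gcongr
      _ = Y ^ (3 * k) * ((n : ℝ) + x) ^ 4 := by rw [← pow_mul, mul_comm k 3]; ring
      _ ≤ Y ^ (3 * k) * (8 * (n : ℝ) ^ 4 + 8 * x ^ 4) := by
          gcongr; exact add_pow_four_le _ _
      _ = 8 * (n : ℝ) ^ 4 * Y ^ (3 * k) + 8 * (Y ^ (3 * k) * x ^ 4) := by ring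
      _ = 8 * (n : ℝ) ^ 4 * Y ^ (3 * k) + 10368 * (n : ℝ) ^ 8 * η ^ k := by rw [hx4]; ring
      _ ≤ 8 * (n : ℝ) ^ 4 * Y ^ (3 * m) + 10368 * (n : ℝ) ^ 8 * η ^ k := by
          gcongr
  -- sum of the bounds
  have hcardP : ((Q.powerset.erase ∅).card : ℝ) ≤ 2 ^ m := by
    have h1 : (Q.powerset.erase ∅).card ≤ Q.powerset.card := card_le_card (erase_subset _ _)
    rw [card_powerset, hQm] at h1
    exact_mod_cast h1
  have hsumη : ∑ I ∈ Q.powerset.erase ∅, η ^ I.card ≤ 2 * m * η := by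
    have h1 : ∑ I ∈ Q.powerset, η ^ I.card = (1 + η) ^ m := by
      have := Finset.sum_pow_mul_eq_add_pow η 1 Q
      simp only [one_pow, mul_one] at this
      rw [this, hQm, add_comm]
    have h2 : ∑ I ∈ Q.powerset.erase ∅, η ^ I.card = (1 + η) ^ m - 1 := by
      rw [← h1, ← Finset.add_sum_erase _ _ (empty_mem_powerset Q)]
      simp
    rw [h2]
    have h3 := one_add_pow_le η hη0 m (by nlinarith)
    linarith
  have hmain : (((∑ I ∈ Q.powerset.erase ∅,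
      (∏ p ∈ I, p)^3 * (EE A (∏ p ∈ I, p))^2 * (EE B (∏ p ∈ I, p))^2 : ℕ)) : ℝ)
      < ((n ^ 4 * n ^ 4 : ℕ) : ℝ) := by
    rw [Nat.cast_sum]
    have hn4 : (0 : ℝ) < (n : ℝ) ^ 4 := by positivity
    have hn8 : (0 : ℝ) < (n : ℝ) ^ 8 := by positivity
    calc ∑ I ∈ Q.powerset.erase ∅,
          (((∏ p ∈ I, p)^3 * (EE A (∏ p ∈ I, p))^2 * (EE B (∏ p ∈ I, p))^2 : ℕ) : ℝ)
        ≤ ∑ I ∈ Q.powerset.erase ∅,
          (8 * (n : ℝ) ^ 4 * Y ^ (3 * m) + 10368 * (n : ℝ) ^ 8 * η ^ I.card) :=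
          Finset.sum_le_sum hterm
      _ = ((Q.powerset.erase ∅).card : ℝ) * (8 * (n : ℝ) ^ 4 * Y ^ (3 * m))
          + 10368 * (n : ℝ) ^ 8 * ∑ I ∈ Q.powerset.erase ∅, η ^ I.card := by
          rw [Finset.sum_add_distrib, Finset.sum_const, nsmul_eq_mul, Finset.mul_sum]
      _ ≤ 2 ^ m * (8 * (n : ℝ) ^ 4 * Y ^ (3 * m)) + 10368 * (n : ℝ) ^ 8 * (2 * m * η) := by
          gcongr
      _ = (n : ℝ) ^ 4 * (16 * (2 : ℝ) ^ m * Y ^ (3 * m)) / 2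
          + (n : ℝ) ^ 8 * (41472 * ((m : ℝ) * η)) / 2 := by ring
      _ < (n : ℝ) ^ 4 * (n : ℝ) ^ 4 / 2 + (n : ℝ) ^ 8 * 1 / 2 := by
          have h1 : (n : ℝ) ^ 4 * (16 * (2 : ℝ) ^ m * Y ^ (3 * m)) ≤ (n : ℝ) ^ 4 * (n : ℝ) ^ 4 :=
            mul_le_mul_of_nonneg_left H2R hn4.le
          have h2 : (n : ℝ) ^ 8 * (41472 * ((m : ℝ) * η)) < (n : ℝ) ^ 8 * 1 :=
            mul_lt_mul_of_pos_left hmη hn8
          linarith
      _ = ((n ^ 4 * n ^ 4 : ℕ) : ℝ) := by push_cast; ring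
  exact_mod_cast hmain

end Vale.Agent.Lib.P012
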