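import Vale.Agent.Lib.P012.Defs

/-!
# P012, part E2: enough primes below `2 ^ (8 σ)` that do not divide `N`
-/

namespace Vale.Agent.Lib.P012

open Finset

/-- `N ≤ 2 ^ L` has at most `L` prime factors. -/
theorem card_primeFactors_le_of_le_two_pow {N L : ℕ} (hN : 0 < N) (hNL : N ≤ 2 ^ L) :
    N.primeFactors.card ≤ L := by
  have h1 : 2 ^ N.primeFactors.card ≤ ∏ p ∈ N.primeFactors, p := by
    rw [← Finset.prod_const]
    apply Finset.prod_le_prod'
    intro p hp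
    exact (Nat.prime_of_mem_primeFactors hp).two_le
  have h2 : ∏ p ∈ N.primeFactors, p ≤ N := Nat.le_of_dvd hN (Nat.prod_primeFactors_dvd N)
  exact (Nat.pow_le_pow_iff_right (by norm_num)).mp (h1.trans (h2.trans hNL))

/-- `16 σ ≤ 2 ^ σ` for `σ ≥ 7`. -/
theorem sixteen_mul_le_two_pow {σ : ℕ} (hσ : 7 ≤ σ) : 16 * σ ≤ 2 ^ σ := by
  induction σ, hσ using Nat.le_induction with
  | base => norm_num
  | succ k hk ih => rw [pow_succ]; omega

/-- Chebyshev-type lower bound at powers of two. -/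
theorem two_mul_two_pow_le_primeCounting {σ : ℕ} (hσ : 7 ≤ σ) :
    2 * 2 ^ (7 * σ) ≤ Nat.primeCounting (2 ^ (8 * σ)) + 2 := by
  have hpi := Chebyshev.pi_ge (2 ^ (8 * σ))
  have hlog2 : 0 < Real.log 2 := Real.log_pos (by norm_num)
  have hσ0 : (0 : ℝ) < σ := by
    have : 0 < σ := by omega
    exact_mod_cast this
  set n : ℝ := (2 : ℝ) ^ (8 * σ) with hn
  have hn1 : (1 : ℝ) ≤ n := one_le_pow₀ (by norm_num)
  have hcast : ((2 ^ (8 * σ) : ℕ) : ℝ) = n := by push_cast; rfl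
  rw [hcast] at hpi
  have hlogn : Real.log n = (8 * σ : ℝ) * Real.log 2 := by
    rw [hn, Real.log_pow]; push_cast; ring
  have hlogn1 : Real.log (n + 1) ≤ (8 * σ + 1 : ℝ) * Real.log 2 := by
    have : Real.log (n + 1) ≤ Real.log (2 * n) :=
      Real.log_le_log (by linarith) (by linarith)
    rw [Real.log_mul (by norm_num) (by linarith), hlogn] at this
    linarith
  rw [hlogn] at hpi
  have hden : (0 : ℝ) < (8 * σ : ℝ) * Real.log 2 := by positivity
  rw [div_le_iff₀ hden] at hpi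
  -- `n - (8σ+1) ≤ π * 8σ`
  have h1 : n - (8 * σ + 1 : ℝ) ≤ (Nat.primeCounting (2 ^ (8 * σ)) : ℝ) * (8 * σ : ℝ) := by
    have : (n - (8 * σ + 1 : ℝ)) * Real.log 2
        ≤ ((Nat.primeCounting (2 ^ (8 * σ)) : ℝ) * (8 * σ : ℝ)) * Real.log 2 := by
      nlinarith
    exact le_of_mul_le_mul_right this hlog2
  have h2 : (16 * σ : ℝ) * (2 : ℝ) ^ (7 * σ) ≤ n := by
    have h16 : (16 * σ : ℝ) ≤ (2 : ℝ) ^ σ := by exact_mod_cast sixteen_mul_le_two_pow hσ
    have : n = (2 : ℝ) ^ σ * (2 : ℝ) ^ (7 * σ) := by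
      rw [hn, ← pow_add]; congr 1; ring
    rw [this]
    exact mul_le_mul_of_nonneg_right h16 (by positivity)
  have h3 : (2 * (2 : ℝ) ^ (7 * σ)) ≤ (Nat.primeCounting (2 ^ (8 * σ)) : ℝ) + 2 := by
    have h4 : (2 * (2 : ℝ) ^ (7 * σ)) * (8 * σ : ℝ)
        ≤ ((Nat.primeCounting (2 ^ (8 * σ)) : ℝ) + 2) * (8 * σ : ℝ) := by
      have hσ1 : (1 : ℝ) ≤ σ := by
        have : 1 ≤ σ := by omega
        exact_mod_cast this
      nlinarith
    exact le_of_mul_le_mul_right h4 (by positivity)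
  exact_mod_cast h3

theorem prime_supply (σ N L m : ℕ) (hσ : 7 ≤ σ) (hN : 0 < N) (hNL : N ≤ 2^L)
    (h : L + m + 2 ≤ 2^(7*σ)) :
    2^(7*σ) + m ≤ ((Finset.range (2^(8*σ) + 1)).filter (fun p => p.Prime ∧ ¬ p ∣ N)).card := by
  have h1 := two_mul_two_pow_le_primeCounting hσ
  have h2 := card_primeFactors_le_of_le_two_pow hN hNL
  have h3 : Nat.primesLE (2 ^ (8 * σ)) \ N.primeFactors
      ⊆ (Finset.range (2^(8*σ) + 1)).filter (fun p => p.Prime ∧ ¬ p ∣ N) := by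
    intro p hp
    rw [Finset.mem_sdiff, Nat.primesLE, Nat.mem_primesBelow] at hp
    rw [Finset.mem_filter, Finset.mem_range]
    refine ⟨hp.1.1, hp.1.2, fun hdvd => hp.2 ?_⟩
    exact Nat.mem_primeFactors.mpr ⟨hp.1.2, hdvd, hN.ne'⟩
  have h4 := Finset.card_le_card h3
  have h5 : (Nat.primesLE (2 ^ (8 * σ))).card - N.primeFactors.card
      ≤ (Nat.primesLE (2 ^ (8 * σ)) \ N.primeFactors).card := Finset.le_card_sdiff _ _
  rw [Nat.primesLE_card_eq_primeCounting] at h5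
  omega

end Vale.Agent.Lib.P012
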