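import Vale.Agent.Lib.P012.Defs

/-!
# P012, Part D: the selection lemma (potential-function averaging)
-/

namespace Vale.Agent.Lib.P012

open Finset

/-- few primes divide a small positive number -/
lemma card_primes_dvd_le (S : Finset ℕ) (hS : ∀ p ∈ S, p.Prime) (n L : ℕ) (hn : 0 < n)
    (hnL : n < 2 ^ L) : (S.filter (fun p => p ∣ n)).card ≤ L := by
  have hsub : S.filter (fun p => p ∣ n) ⊆ n.primeFactors := by
    intro p hp
    rw [mem_filter] at hp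
    exact Nat.mem_primeFactors.mpr ⟨hS p hp.1, hp.2, hn.ne'⟩
  have h1 : 2 ^ (n.primeFactors).card ≤ ∏ p ∈ n.primeFactors, p :=
    Finset.pow_card_le_prod _ _ _ (fun p hp => (Nat.prime_of_mem_primeFactors hp).two_le)
  have h2 : ∏ p ∈ n.primeFactors, p ≤ n := Nat.le_of_dvd hn (Nat.prod_primeFactors_dvd n)
  have h3 : 2 ^ (n.primeFactors).card < 2 ^ L := lt_of_le_of_lt (h1.trans h2) hnL
  have h4 : (n.primeFactors).card < L := (Nat.pow_lt_pow_iff_right (by norm_num)).mp h3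
  exact (card_le_card hsub).trans h4.le

/-- key inequality: summing the collision numbers over primes costs at most a factor `L` -/
lemma sum_Coll_mul_le (A : Finset ℕ) (L : ℕ) (hA : ∀ a ∈ A, a < 2 ^ L) (S : Finset ℕ)
    (hS : ∀ p ∈ S, p.Prime) (D : ℕ) : ∑ p ∈ S, Coll A (p * D) ≤ L * Coll A D := by
  unfold Coll
  simp only [card_filter]
  rw [Finset.sum_comm, Finset.mul_sum]
  apply Finset.sum_le_sum
  intro q hq
  rw [mem_product] at hq
  by_cases h : q.1 ≠ q.2 ∧ q.1 ≡ q.2 [MOD D]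
  · rw [if_pos h, mul_one, ← card_filter]
    set n : ℕ := ((q.2 : ℤ) - (q.1 : ℤ)).natAbs with hn
    have hnpos : 0 < n := by
      rw [hn, Int.natAbs_pos, sub_ne_zero]
      exact_mod_cast h.1.symm
    have hnlt : n < 2 ^ L := by
      have h1 := hA _ hq.1
      have h2 := hA _ hq.2
      omega
    refine le_trans (card_le_card ?_) (card_primes_dvd_le S hS n L hnpos hnlt)
    intro p hp
    rw [mem_filter] at hp ⊢
    refine ⟨hp.1, ?_⟩
    have h3 : q.1 ≡ q.2 [MOD p] := Nat.ModEq.of_mul_right D hp.2.2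
    have h4 := (Nat.modEq_iff_dvd).mp h3
    rw [hn]
    exact Int.natCast_dvd.mp h4
  · rw [if_neg h, mul_zero]
    apply le_of_eq
    apply Finset.sum_eq_zero
    intro p _
    rw [if_neg]
    rintro ⟨h1, h2⟩
    exact h ⟨h1, Nat.ModEq.of_mul_left p h2⟩

lemma Coll_le (A : Finset ℕ) (D : ℕ) : Coll A D ≤ A.card ^ 2 := by
  unfold Coll
  calc _ ≤ (A ×ˢ A).card := card_filter_le _ _
    _ = A.card ^ 2 := by rw [card_product, sq]

/-- the potential function -/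
noncomputable def Phi (A B : Finset ℕ) (c : ℝ) (Q : Finset ℕ) : ℝ :=
  ∑ I ∈ Q.powerset, c ^ I.card * ((Coll A (∏ p ∈ I, p) + Coll B (∏ p ∈ I, p) : ℕ) : ℝ)

lemma Phi_nonneg (A B : Finset ℕ) {c : ℝ} (hc : 0 ≤ c) (Q : Finset ℕ) : 0 ≤ Phi A B c Q :=
  Finset.sum_nonneg fun _ _ => by positivity

lemma Phi_insert (A B : Finset ℕ) (c : ℝ) (Q : Finset ℕ) (p : ℕ) (hp : p ∉ Q) :
    Phi A B c (insert p Q) = Phi A B c Q +
      ∑ I ∈ Q.powerset, c ^ (I.card + 1) *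
        ((Coll A (p * ∏ r ∈ I, r) + Coll B (p * ∏ r ∈ I, r) : ℕ) : ℝ) := by
  unfold Phi
  rw [Finset.sum_powerset_insert hp]
  congr 1
  apply Finset.sum_congr rfl
  intro I hI
  have hpI : p ∉ I := fun h => hp (mem_powerset.mp hI h)
  rw [card_insert_of_notMem hpI, prod_insert hpI]

lemma exists_good_prime (A B : Finset ℕ) (L : ℕ) (hA : ∀ a ∈ A, a < 2 ^ L)
    (hB : ∀ b ∈ B, b < 2 ^ L) (PP : Finset ℕ) (hPP : ∀ p ∈ PP, p.Prime) (M : ℕ) (hM : 0 < M)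
    {c : ℝ} (hc : 0 ≤ c) (Q : Finset ℕ) (hQ : Q ⊆ PP) (hcard : M + Q.card ≤ PP.card) :
    ∃ p ∈ PP \ Q, Phi A B c (insert p Q) ≤ Phi A B c Q * (1 + c * L / M) := by
  set R := PP \ Q with hR
  have hRcard : M ≤ R.card := by
    rw [hR, card_sdiff_of_subset hQ]; omega
  have hRne : R.Nonempty := card_pos.mp (lt_of_lt_of_le hM hRcard)
  set inc : ℕ → ℝ := fun p => ∑ I ∈ Q.powerset, c ^ (I.card + 1) *
        ((Coll A (p * ∏ r ∈ I, r) + Coll B (p * ∏ r ∈ I, r) : ℕ) : ℝ) with hinc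
  have hsum : ∑ p ∈ R, inc p ≤ c * L * Phi A B c Q := by
    simp only [hinc]
    rw [Finset.sum_comm]
    unfold Phi
    rw [Finset.mul_sum]
    apply Finset.sum_le_sum
    intro I _
    rw [← Finset.mul_sum]
    have hRp : ∀ p ∈ R, p.Prime := fun p hp => hPP p (mem_sdiff.mp hp).1
    have h1 := sum_Coll_mul_le A L hA R hRp (∏ r ∈ I, r)
    have h2 := sum_Coll_mul_le B L hB R hRp (∏ r ∈ I, r)
    have h3 : (∑ p ∈ R, ((Coll A (p * ∏ r ∈ I, r) + Coll B (p * ∏ r ∈ I, r) : ℕ) : ℝ))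
        ≤ (L : ℝ) * ((Coll A (∏ r ∈ I, r) + Coll B (∏ r ∈ I, r) : ℕ) : ℝ) := by
      rw [← Nat.cast_sum, ← Nat.cast_mul]
      apply Nat.cast_le.mpr
      rw [Finset.sum_add_distrib, mul_add]
      exact add_le_add h1 h2
    calc c ^ (I.card + 1) * ∑ p ∈ R, ((Coll A (p * ∏ r ∈ I, r) + Coll B (p * ∏ r ∈ I, r) : ℕ) : ℝ)
        ≤ c ^ (I.card + 1) * ((L : ℝ) * ((Coll A (∏ r ∈ I, r) + Coll B (∏ r ∈ I, r) : ℕ) : ℝ)) :=
          mul_le_mul_of_nonneg_left h3 (by positivity)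
      _ = c * L * (c ^ I.card * ((Coll A (∏ r ∈ I, r) + Coll B (∏ r ∈ I, r) : ℕ) : ℝ)) := by
          rw [pow_succ]; ring
  -- averaging
  have hex : ∃ p ∈ R, inc p ≤ c * L * Phi A B c Q / M := by
    by_contra hcon
    push Not at hcon
    have h1 : ∑ p ∈ R, (c * L * Phi A B c Q / M) < ∑ p ∈ R, inc p :=
      Finset.sum_lt_sum_of_nonempty hRne hcon
    rw [Finset.sum_const, nsmul_eq_mul] at h1
    have hnn : 0 ≤ c * L * Phi A B c Q / M := by
      have := Phi_nonneg A B hc Q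
      positivity
    have h2 : (M : ℝ) * (c * L * Phi A B c Q / M) ≤ (R.card : ℝ) * (c * L * Phi A B c Q / M) :=
      mul_le_mul_of_nonneg_right (by exact_mod_cast hRcard) hnn
    have hM' : (M : ℝ) ≠ 0 := by exact_mod_cast hM.ne'
    have h3 : (M : ℝ) * (c * L * Phi A B c Q / M) = c * L * Phi A B c Q := by
      field_simp
    linarith
  obtain ⟨p, hpR, hp⟩ := hex
  refine ⟨p, hpR, ?_⟩
  rw [Phi_insert A B c Q p (mem_sdiff.mp hpR).2]
  have : Phi A B c Q * (1 + c * L / M) = Phi A B c Q + c * L * Phi A B c Q / M := by ring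
  rw [this]
  exact add_le_add le_rfl hp

theorem selection (A B : Finset ℕ) (L : ℕ) (hL : 0 < L)
    (hA : ∀ a ∈ A, a < 2^L) (hB : ∀ b ∈ B, b < 2^L)
    (PP : Finset ℕ) (hPP : ∀ p ∈ PP, p.Prime) (m M : ℕ) (hm : 0 < m) (hM : 0 < M)
    (hcard : M + m ≤ PP.card) :
    ∃ Q ⊆ PP, Q.card = m ∧ ∀ I ⊆ Q,
      (Coll A (∏ p ∈ I, p) + Coll B (∏ p ∈ I, p)) * M^I.card
        ≤ 3 * (A.card^2 + B.card^2) * (m * L)^I.card := by
  have hmR : (0 : ℝ) < m := by exact_mod_cast hm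
  have hLR : (0 : ℝ) < L := by exact_mod_cast hL
  have hMR : (0 : ℝ) < M := by exact_mod_cast hM
  set c : ℝ := (M : ℝ) / (m * L) with hc_def
  have hc : 0 ≤ c := by positivity
  have hfac : c * L / M = 1 / m := by
    rw [hc_def]; field_simp
  -- induction
  have hind : ∀ j ≤ m, ∃ Q ⊆ PP, Q.card = j ∧
      Phi A B c Q ≤ (1 + 1 / (m : ℝ)) ^ j * Phi A B c ∅ := by
    intro j
    induction j with
    | zero => intro _; exact ⟨∅, empty_subset _, rfl, by simp⟩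
    | succ j ih =>
      intro hj
      obtain ⟨Q, hQ, hQc, hQP⟩ := ih (by omega)
      obtain ⟨p, hp, hpP⟩ := exists_good_prime A B L hA hB PP hPP M hM hc Q hQ (by omega)
      refine ⟨insert p Q, ?_, ?_, ?_⟩
      · exact insert_subset (mem_sdiff.mp hp).1 hQ
      · rw [card_insert_of_notMem (mem_sdiff.mp hp).2, hQc]
      · rw [hfac] at hpP
        calc Phi A B c (insert p Q) ≤ Phi A B c Q * (1 + 1 / (m : ℝ)) := hpP
          _ ≤ ((1 + 1 / (m : ℝ)) ^ j * Phi A B c ∅) * (1 + 1 / (m : ℝ)) :=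
              mul_le_mul_of_nonneg_right hQP (by positivity)
          _ = (1 + 1 / (m : ℝ)) ^ (j + 1) * Phi A B c ∅ := by rw [pow_succ]; ring
  obtain ⟨Q, hQ, hQc, hQP⟩ := hind m le_rfl
  refine ⟨Q, hQ, hQc, ?_⟩
  intro I hI
  have hpow : (1 + 1 / (m : ℝ)) ^ m ≤ 3 := by
    have h1 : 1 + 1 / (m : ℝ) ≤ Real.exp (1 / (m : ℝ)) := by
      have := Real.add_one_le_exp (1 / (m : ℝ)); linarith
    have h2 : (1 + 1 / (m : ℝ)) ^ m ≤ (Real.exp (1 / (m : ℝ))) ^ m :=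
      pow_le_pow_left₀ (by positivity) h1 m
    have h3 : (Real.exp (1 / (m : ℝ))) ^ m = Real.exp 1 := by
      rw [← Real.exp_nat_mul]; congr 1; field_simp
    have h4 := Real.exp_one_lt_d9
    rw [h3] at h2
    linarith
  have hPhi0 : Phi A B c ∅ ≤ ((A.card ^ 2 + B.card ^ 2 : ℕ) : ℝ) := by
    unfold Phi
    simp only [powerset_empty, sum_singleton, card_empty, pow_zero, prod_empty, one_mul]
    exact Nat.cast_le.mpr (add_le_add (Coll_le A 1) (Coll_le B 1))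
  have hPhi0nn : 0 ≤ Phi A B c ∅ := Phi_nonneg A B hc ∅
  have hterm : c ^ I.card * ((Coll A (∏ p ∈ I, p) + Coll B (∏ p ∈ I, p) : ℕ) : ℝ)
      ≤ Phi A B c Q := by
    unfold Phi
    exact Finset.single_le_sum
      (f := fun I : Finset ℕ => c ^ I.card * ((Coll A (∏ p ∈ I, p) + Coll B (∏ p ∈ I, p) : ℕ) : ℝ))
      (fun J _ => by positivity) (mem_powerset.mpr hI)
  have hfin : c ^ I.card * ((Coll A (∏ p ∈ I, p) + Coll B (∏ p ∈ I, p) : ℕ) : ℝ)
      ≤ 3 * ((A.card ^ 2 + B.card ^ 2 : ℕ) : ℝ) := by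
    calc _ ≤ Phi A B c Q := hterm
      _ ≤ (1 + 1 / (m : ℝ)) ^ m * Phi A B c ∅ := hQP
      _ ≤ 3 * Phi A B c ∅ := mul_le_mul_of_nonneg_right hpow hPhi0nn
      _ ≤ 3 * ((A.card ^ 2 + B.card ^ 2 : ℕ) : ℝ) := by linarith
  have hmL : (0 : ℝ) < ((m : ℝ) * L) ^ I.card := by positivity
  have hcast : (((Coll A (∏ p ∈ I, p) + Coll B (∏ p ∈ I, p)) * M ^ I.card : ℕ) : ℝ)
      ≤ ((3 * (A.card ^ 2 + B.card ^ 2) * (m * L) ^ I.card : ℕ) : ℝ) := by
    push_cast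
    push_cast at hfin
    rw [hc_def, div_pow] at hfin
    rw [div_mul_eq_mul_div, div_le_iff₀ hmL] at hfin
    linarith
  exact_mod_cast hcast

end Vale.Agent.Lib.P012
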