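import Vale.Agent.Lib.P012.Covering
import Vale.Agent.Lib.P012.GoodStep
import Vale.Agent.Lib.P012.Selection
import Vale.Agent.Lib.P012.Numerics
import Vale.Agent.Lib.P012.PrimeSupply

namespace Vale.Agent.Lib.P012
open Finset

/-- step size at level `i` -/
def rho (i : ℕ) : ℕ := 2^i / (96 * i + 241)

lemma card_divisors_prod_primes (S : Finset ℕ) (hS : ∀ p ∈ S, p.Prime) :
    (∏ p ∈ S, p).divisors.card = 2 ^ S.card := by
  induction S using Finset.induction_on with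
  | empty => simp
  | insert q S hq ih =>
    have hS' : ∀ p ∈ S, p.Prime := fun p hp => hS p (Finset.mem_insert_of_mem hp)
    have hqp : q.Prime := hS q (Finset.mem_insert_self q S)
    rw [Finset.prod_insert hq, Finset.card_insert_of_notMem hq]
    have hcop : Nat.Coprime q (∏ p ∈ S, p) := by
      apply Nat.Coprime.prod_right
      intro p hp
      rw [Nat.coprime_primes hqp (hS' p hp)]
      intro h; rw [h] at hq; exact hq hp
    rw [Nat.Coprime.card_divisors_mul hcop, ih hS', Nat.Prime.divisors hqp]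
    rw [Finset.card_pair hqp.one_lt.ne]
    ring

lemma coprime_prod_of_not_dvd (S : Finset ℕ) (hS : ∀ p ∈ S, p.Prime) (x : ℕ)
    (hx : ∀ p ∈ S, ¬ p ∣ x) : Nat.Coprime x (∏ p ∈ S, p) := by
  apply Nat.Coprime.prod_right
  intro p hp
  exact ((hS p hp).coprime_iff_not_dvd.mpr (hx p hp)).symm

lemma level_ineq {i : ℕ} (hi : 11 ≤ i) : 96 * i + 241 ≤ 2 ^ i := by
  induction i, hi using Nat.le_induction with
  | base => norm_num
  | succ k hk ih => rw [pow_succ]; omega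

lemma rho_pos {i : ℕ} (hi : 11 ≤ i) : 0 < rho i :=
  Nat.div_pos (level_ineq hi) (by omega)

lemma rho_mul_le (i : ℕ) : rho i * (96 * i + 241) ≤ 2 ^ i :=
  Nat.div_mul_le_self _ _

lemma hcov_of_covering {U V : ℕ} (hU : Odd U) (hV : Odd V) (P : ℕ)
    (hcovr : ∀ x : ℕ, ∃ a b : Fin 4 → ℕ, (∀ i, a i ∈ U.divisors) ∧ (∀ i, b i ∈ V.divisors) ∧
      ∑ i : Fin 4, (2 ^ (i : ℕ)) * a i * b i ≡ x [MOD P]) :
    ∀ x : ℕ, ∃ D ⊆ (16 * U * V).divisors, D.card ≤ 4 ∧ ∑ d ∈ D, d ≤ 16 * U * V ∧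
      (∑ d ∈ D, d) ≡ x [MOD P] := by
  intro x
  obtain ⟨a, b, ha, hb, hx⟩ := hcovr x
  have hUpos : 0 < U := hU.pos
  have hVpos : 0 < V := hV.pos
  set f : Fin 4 → ℕ := fun i => (2 ^ (i : ℕ)) * a i * b i with hf
  have hgcd : ∀ i : Fin 4, Nat.gcd (f i) 16 = 2 ^ (i : ℕ) := by
    intro i
    have hao : Odd (a i) := Odd.of_dvd_nat hU (Nat.dvd_of_mem_divisors (ha i))
    have hbo : Odd (b i) := Odd.of_dvd_nat hV (Nat.dvd_of_mem_divisors (hb i))
    have hco : Nat.Coprime (a i * b i) 16 := by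
      have : Nat.Coprime (a i * b i) (2 ^ 4) :=
        Nat.Coprime.pow_right 4 (Nat.coprime_two_right.mpr (hao.mul hbo))
      simpa using this
    have e : f i = 2 ^ (i : ℕ) * (a i * b i) := by rw [hf]; ring
    rw [e, Nat.Coprime.gcd_mul_right_cancel _ hco]
    apply Nat.gcd_eq_left
    have : (16 : ℕ) = 2 ^ 4 := by norm_num
    rw [this]
    exact pow_dvd_pow 2 (by omega)
  have hinj : Function.Injective f := by
    intro i j hij
    have h1 : 2 ^ (i : ℕ) = 2 ^ (j : ℕ) := by rw [← hgcd i, ← hgcd j, hij]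
    exact Fin.ext (Nat.pow_right_injective (le_refl 2) h1)
  have hsum : ∑ d ∈ Finset.univ.image f, d = ∑ i, f i :=
    Finset.sum_image (fun i _ j _ h => hinj h)
  refine ⟨Finset.univ.image f, ?_, ?_, ?_, ?_⟩
  · intro d hd
    obtain ⟨i, _, rfl⟩ := Finset.mem_image.mp hd
    rw [Nat.mem_divisors]
    refine ⟨?_, by positivity⟩
    apply Nat.mul_dvd_mul (Nat.mul_dvd_mul _ (Nat.dvd_of_mem_divisors (ha i)))
      (Nat.dvd_of_mem_divisors (hb i))
    have : (16 : ℕ) = 2 ^ 4 := by norm_num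
    rw [this]
    exact pow_dvd_pow 2 (by omega)
  · exact (Finset.card_image_le).trans (by simp)
  · rw [hsum]
    have hle : ∀ i : Fin 4, f i ≤ 2 ^ (i : ℕ) * U * V := by
      intro i
      exact Nat.mul_le_mul (Nat.mul_le_mul le_rfl (Nat.divisor_le (ha i))) (Nat.divisor_le (hb i))
    calc ∑ i, f i ≤ ∑ i : Fin 4, 2 ^ (i : ℕ) * U * V := Finset.sum_le_sum (fun i _ => hle i)
      _ = 15 * U * V := by simp [Fin.sum_univ_four]; ring
      _ ≤ 16 * U * V := by gcongr; norm_num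
  · rw [hsum]; exact hx

theorem main_step {i u N h : ℕ} (hi : 11 ≤ i) (hu1 : 2^i ≤ u) (hu2 : u < 2^(i+1))
    (hinv : Inv u N h) : ∃ N', Inv (u + rho i) N' (h + 4) := by
  obtain ⟨U, V, hN, hUV, hU, hV, hUc, hVc, hNle, hgood⟩ := hinv
  have hUpos : 0 < U := hU.pos
  have hVpos : 0 < V := hV.pos
  have hNpos : 0 < N := by rw [hN]; positivity
  set σ := 4 * i + 10 with hσ
  set r := rho i with hr
  set m := 2 * r with hm
  set L := 4 * (u + 1) ^ 2 with hL
  have hrpos : 0 < r := rho_pos hi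
  have hrmul : r * (96 * i + 241) ≤ 2 ^ i := rho_mul_le i
  have hr_le : r ≤ 2 ^ i := by nlinarith
  have hm_le : m ≤ 2 ^ (i + 1) := by rw [hm, pow_succ]; omega
  have hL_le : L ≤ 2 ^ (2 * i + 4) := by
    have h1 : u + 1 ≤ 2 ^ (i + 1) := hu2
    calc L = 4 * (u + 1) ^ 2 := rfl
      _ ≤ 4 * (2 ^ (i + 1)) ^ 2 := by gcongr
      _ = 2 ^ (2 * i + 4) := by ring
  have hLpos : 0 < L := by rw [hL]; positivity
  -- the supply of primes
  set PP := (Finset.range (2^(8*σ) + 1)).filter (fun p => p.Prime ∧ ¬ p ∣ N) with hPP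
  have hsupply : 2^(7*σ) + m ≤ PP.card := by
    apply prime_supply σ N L m (by omega) hNpos hNle
    have h1 : 2 ^ (2 * i + 4) + 2 ^ (i + 1) + 2 ≤ 2 ^ (7 * σ) := by
      have e1 : 2 ^ (i + 1) ≤ 2 ^ (2 * i + 4) := Nat.pow_le_pow_right (by norm_num) (by omega)
      have e2 : 2 ≤ 2 ^ (2 * i + 4) := by
        calc 2 = 2 ^ 1 := by norm_num
          _ ≤ 2 ^ (2 * i + 4) := Nat.pow_le_pow_right (by norm_num) (by omega)
      have e3 : 2 ^ (2 * i + 4) * 4 = 2 ^ (2 * i + 6) := by ring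
      have e4 : 2 ^ (2 * i + 6) ≤ 2 ^ (7 * σ) := Nat.pow_le_pow_right (by norm_num) (by omega)
      omega
    omega
  have hPPprime : ∀ p ∈ PP, p.Prime := fun p hp => (Finset.mem_filter.mp hp).2.1
  have hAlt : ∀ a ∈ U.divisors, a < 2 ^ L := by
    intro a ha
    have h1 : a ≤ U := Nat.divisor_le ha
    have h2 : U < N := by rw [hN]; nlinarith
    omega
  have hBlt : ∀ b ∈ V.divisors, b < 2 ^ L := by
    intro b hb
    have h1 : b ≤ V := Nat.divisor_le hb
    have h2 : V < N := by rw [hN]; nlinarith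
    omega
  obtain ⟨Q, hQPP, hQcard, hcoll⟩ := selection U.divisors V.divisors L hLpos hAlt hBlt PP hPPprime
    m (2^(7*σ)) (by omega) (by positivity) hsupply
  have hQprime : ∀ p ∈ Q, p.Prime := fun p hp => hPPprime p (hQPP hp)
  have hQN : ∀ p ∈ Q, ¬ p ∣ N := fun p hp => (Finset.mem_filter.mp (hQPP hp)).2.2
  have hQY : ∀ p ∈ Q, p ≤ 2 ^ (8 * σ) := by
    intro p hp
    have := Finset.mem_range.mp (Finset.mem_filter.mp (hQPP hp)).1
    omega
  -- numerics
  have H1 : 41472 * m^5 * L^4 < 2^(4*σ) := by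
    calc 41472 * m^5 * L^4 ≤ 41472 * (2 ^ (i + 1))^5 * (2 ^ (2 * i + 4))^4 := by gcongr
      _ < 2 ^ 16 * (2 ^ (i + 1))^5 * (2 ^ (2 * i + 4))^4 := by
          apply Nat.mul_lt_mul_of_pos_right _ (by positivity)
          apply Nat.mul_lt_mul_of_pos_right _ (by positivity)
          norm_num
      _ = 2 ^ (13 * i + 37) := by ring
      _ ≤ 2 ^ (4 * σ) := Nat.pow_le_pow_right (by norm_num) (by omega)
  have hexp : 4 + m + 8 * σ * (3 * m) ≤ 4 * u := by
    have e : m + 8 * σ * (3 * m) = 2 * (r * (96 * i + 241)) := by rw [hm, hσ]; ring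
    have : 4 ≤ 2 ^ i := by
      calc 4 = 2 ^ 2 := by norm_num
        _ ≤ 2 ^ i := Nat.pow_le_pow_right (by norm_num) (by omega)
    omega
  have H2 : 16 * 2^m * (2^(8*σ))^(3*m) ≤ (2 ^ u)^4 := by
    calc 16 * 2^m * (2^(8*σ))^(3*m) = 2 ^ (4 + m + 8 * σ * (3 * m)) := by
          rw [pow_add, pow_add, ← pow_mul]; norm_num
      _ ≤ 2 ^ (4 * u) := Nat.pow_le_pow_right (by norm_num) hexp
      _ = (2 ^ u)^4 := by rw [← pow_mul, mul_comm]
  have hsum := numerics Q U.divisors V.divisors σ m L (2 ^ u) hQcard hQY hUc hVc (by positivity)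
    hcoll H1 H2
  have hc : ∀ j : Fin 4, ∀ p ∈ Q, ¬ p ∣ (fun j : Fin 4 => 2 ^ (j : ℕ)) j := by
    intro j p hp hdvd
    have h2 : p ∣ 2 := (hQprime p hp).dvd_of_dvd_pow hdvd
    apply hQN p hp
    rw [hN]
    have : (2 : ℕ) ∣ 16 * U * V := ⟨8 * U * V, by ring⟩
    exact h2.trans this
  have hcovr := covering Q hQprime U.divisors V.divisors (fun j : Fin 4 => 2 ^ (j : ℕ)) hc hsum
  have hcov := hcov_of_covering hU hV (∏ p ∈ Q, p) hcovr
  rw [← hN] at hcov
  have hcopNP : Nat.Coprime N (∏ p ∈ Q, p) := coprime_prod_of_not_dvd Q hQprime N hQN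
  have hPpos : 0 < ∏ p ∈ Q, p := Finset.prod_pos (fun p hp => (hQprime p hp).pos)
  have hgood' : Good (N * ∏ p ∈ Q, p) (h + 4) := good_step hgood hcopNP hPpos hcov
  -- split `Q`
  obtain ⟨Q1, hQ1, hQ1card⟩ := Finset.exists_subset_card_eq (s := Q) (n := r) (by omega)
  set Q2 := Q \ Q1 with hQ2
  have hQ2sub : Q2 ⊆ Q := Finset.sdiff_subset
  have hQ2card : Q2.card = r := by
    rw [hQ2, Finset.card_sdiff_of_subset hQ1, hQcard, hQ1card]; omega
  have hprod : (∏ p ∈ Q2, p) * (∏ p ∈ Q1, p) = ∏ p ∈ Q, p := Finset.prod_sdiff hQ1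
  have hndU : ∀ p ∈ Q, ¬ p ∣ U := by
    intro p hp hd
    apply hQN p hp
    rw [hN]
    exact Dvd.dvd.mul_right (Dvd.dvd.mul_left hd 16) V
  have hndV : ∀ p ∈ Q, ¬ p ∣ V := by
    intro p hp hd
    apply hQN p hp
    rw [hN]
    exact Dvd.dvd.mul_left hd (16 * U)
  have hodd : ∀ S ⊆ Q, Odd (∏ p ∈ S, p) := by
    intro S hS
    apply Finset.prod_induction _ Odd (fun a b ha hb => ha.mul hb) odd_one
    intro p hp
    apply (hQprime p (hS hp)).odd_of_ne_two
    intro h2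
    apply hQN p (hS hp)
    rw [hN, h2]
    exact ⟨8 * U * V, by ring⟩
  have hcop12 : Nat.Coprime (∏ p ∈ Q1, p) (∏ p ∈ Q2, p) := by
    apply coprime_prod_of_not_dvd Q2 (fun p hp => hQprime p (hQ2sub hp))
    intro p hp hd
    have hpp := hQprime p (hQ2sub hp)
    obtain ⟨q, hq, hpq⟩ := (Prime.dvd_finsetProd_iff hpp.prime _).mp hd
    have : p = q := (Nat.prime_dvd_prime_iff_eq hpp (hQprime q (hQ1 hq))).mp hpq
    rw [this] at hp
    exact (Finset.mem_sdiff.mp hp).2 hq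
  refine ⟨N * ∏ p ∈ Q, p, U * ∏ p ∈ Q1, p, V * ∏ p ∈ Q2, p, ?_, ?_, ?_, ?_, ?_, ?_, ?_, hgood'⟩
  · rw [hN, ← hprod]; ring
  · apply Nat.Coprime.mul_left
    · apply Nat.Coprime.mul_right hUV
      exact coprime_prod_of_not_dvd Q2 (fun p hp => hQprime p (hQ2sub hp)) U
        (fun p hp => hndU p (hQ2sub hp))
    · apply Nat.Coprime.mul_right _ hcop12
      exact (coprime_prod_of_not_dvd Q1 (fun p hp => hQprime p (hQ1 hp)) V
        (fun p hp => hndV p (hQ1 hp))).symm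
  · exact hU.mul (hodd Q1 hQ1)
  · exact hV.mul (hodd Q2 hQ2sub)
  · rw [Nat.Coprime.card_divisors_mul (coprime_prod_of_not_dvd Q1 (fun p hp => hQprime p (hQ1 hp)) U
      (fun p hp => hndU p (hQ1 hp))), hUc,
      card_divisors_prod_primes Q1 (fun p hp => hQprime p (hQ1 hp)), hQ1card, pow_add]
  · rw [Nat.Coprime.card_divisors_mul (coprime_prod_of_not_dvd Q2
      (fun p hp => hQprime p (hQ2sub hp)) V (fun p hp => hndV p (hQ2sub hp))), hVc,
      card_divisors_prod_primes Q2 (fun p hp => hQprime p (hQ2sub hp)), hQ2card, pow_add]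
  · have hPle : ∏ p ∈ Q, p ≤ (2 ^ (8 * σ)) ^ m := by
      rw [← hQcard]
      exact Finset.prod_le_pow_card _ _ _ hQY
    calc N * ∏ p ∈ Q, p ≤ 2 ^ L * (2 ^ (8 * σ)) ^ m := Nat.mul_le_mul hNle hPle
      _ = 2 ^ (L + 8 * σ * m) := by rw [pow_add, ← pow_mul]
      _ ≤ 2 ^ (4 * (u + r + 1) ^ 2) := by
          apply Nat.pow_le_pow_right (by norm_num)
          have e0 : 8 * σ * (3 * m) = 3 * (8 * σ * m) := by ring
          have e1 : 8 * σ * m ≤ 4 * u := by omega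
          have e2 : 4 * (u + r + 1) ^ 2 = L + 8 * (u + 1) * r + 4 * r ^ 2 := by rw [hL]; ring
          have e3 : 8 * (u + 1) ≤ 8 * (u + 1) * r := Nat.le_mul_of_pos_right _ hrpos
          rw [e2]
          omega

end Vale.Agent.Lib.P012
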