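import Vale.Agent.Lib.P012.Defs

namespace Vale.Agent.Lib.P012

open Finset

theorem rep_of_good {N h a b : ℕ} (hN : Good N h) (ha : 1 ≤ a) (hab : a < b) (hbN : b ≤ N) :
    ∃ S : Finset ℕ, (∀ n ∈ S, 2 ≤ n) ∧ ∑ n ∈ S, (1 / (n : ℚ)) = (a : ℚ) / b ∧ S.card ≤ 2 * h := by
  have hb0 : 0 < b := by omega
  have hN0 : 0 < N := by omega
  set q := a * N / b with hq
  set r := a * N % b with hr
  have hdiv : b * q + r = a * N := Nat.div_add_mod (a * N) b
  have hrb : r < b := Nat.mod_lt _ hb0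
  have hqN : q < N := by
    rw [hq, Nat.div_lt_iff_lt_mul hb0, Nat.mul_comm N b]
    exact Nat.mul_lt_mul_of_pos_right hab hN0
  obtain ⟨S1, hS1, hc1, hs1⟩ := hN q hqN.le
  obtain ⟨S2, hS2, hc2, hs2⟩ := hN r (by omega)
  -- elements of S1 are ≤ q < N, elements of S2 are ≤ r < b
  have hle1 : ∀ d ∈ S1, d ≤ q := by
    intro d hd
    rw [← hs1]
    exact Finset.single_le_sum (f := fun x => x) (fun _ _ => Nat.zero_le _) hd
  have hle2 : ∀ d ∈ S2, d ≤ r := by
    intro d hd
    rw [← hs2]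
    exact Finset.single_le_sum (f := fun x => x) (fun _ _ => Nat.zero_le _) hd
  have hd1 : ∀ d ∈ S1, d ∣ N ∧ 0 < d := by
    intro d hd
    have := Nat.mem_divisors.mp (hS1 hd)
    exact ⟨this.1, Nat.pos_of_dvd_of_pos this.1 hN0⟩
  have hd2 : ∀ d ∈ S2, d ∣ N ∧ 0 < d := by
    intro d hd
    have := Nat.mem_divisors.mp (hS2 hd)
    exact ⟨this.1, Nat.pos_of_dvd_of_pos this.1 hN0⟩
  have hinj1 : Set.InjOn (fun d => N / d) (S1 : Set ℕ) := by
    intro x hx y hy hxy
    obtain ⟨⟨u, hu⟩, hx0⟩ := hd1 x hx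
    obtain ⟨⟨v, hv⟩, hy0⟩ := hd1 y hy
    simp only at hxy
    have h1 : N / x = u := by rw [hu]; exact Nat.mul_div_cancel_left u hx0
    have h2 : N / y = v := by rw [hv]; exact Nat.mul_div_cancel_left v hy0
    have huv : u = v := by rw [← h1, ← h2]; exact hxy
    have hu0 : 0 < u := by
      rcases Nat.eq_zero_or_pos u with h | h
      · subst h; omega
      · exact h
    have : x * u = y * u := by rw [← hu, huv, ← hv]
    exact Nat.eq_of_mul_eq_mul_right hu0 this
  have hinj2 : Set.InjOn (fun d => b * (N / d)) (S2 : Set ℕ) := by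
    intro x hx y hy hxy
    obtain ⟨⟨u, hu⟩, hx0⟩ := hd2 x hx
    obtain ⟨⟨v, hv⟩, hy0⟩ := hd2 y hy
    simp only at hxy
    have hxy' : N / x = N / y := Nat.eq_of_mul_eq_mul_left hb0 hxy
    have h1 : N / x = u := by rw [hu]; exact Nat.mul_div_cancel_left u hx0
    have h2 : N / y = v := by rw [hv]; exact Nat.mul_div_cancel_left v hy0
    have huv : u = v := by rw [← h1, ← h2]; exact hxy'
    have hu0 : 0 < u := by
      rcases Nat.eq_zero_or_pos u with h | h
      · subst h; omega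
      · exact h
    have : x * u = y * u := by rw [← hu, huv, ← hv]
    exact Nat.eq_of_mul_eq_mul_right hu0 this
  -- N / d ≤ N for d in S1 ; b * (N / d) > N for d in S2
  have hbig : ∀ d ∈ S2, N < b * (N / d) := by
    intro d hd
    obtain ⟨⟨u, hu⟩, hd0⟩ := hd2 d hd
    have h1 : N / d = u := by rw [hu]; exact Nat.mul_div_cancel_left u hd0
    have hu0 : 0 < u := by
      rcases Nat.eq_zero_or_pos u with h | h
      · subst h; omega
      · exact h
    rw [h1]
    have hdb : d < b := lt_of_le_of_lt (hle2 d hd) hrb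
    calc N = d * u := hu
      _ < b * u := Nat.mul_lt_mul_of_pos_right hdb hu0
  have hdisj : Disjoint (S1.image (fun d => N / d)) (S2.image (fun d => b * (N / d))) := by
    rw [Finset.disjoint_left]
    intro n h1 h2
    rw [Finset.mem_image] at h1 h2
    obtain ⟨d, hd, rfl⟩ := h1
    obtain ⟨e, he, hee⟩ := h2
    have := hbig e he
    have h3 : N / d ≤ N := Nat.div_le_self N d
    omega
  refine ⟨S1.image (fun d => N / d) ∪ S2.image (fun d => b * (N / d)), ?_, ?_, ?_⟩
  · intro n hn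
    rw [Finset.mem_union, Finset.mem_image, Finset.mem_image] at hn
    rcases hn with ⟨d, hd, rfl⟩ | ⟨d, hd, rfl⟩
    · obtain ⟨⟨u, hu⟩, hd0⟩ := hd1 d hd
      have h1 : N / d = u := by rw [hu]; exact Nat.mul_div_cancel_left u hd0
      rw [h1]
      have hdN : d < N := lt_of_le_of_lt (hle1 d hd) hqN
      by_contra hcon
      have hu1 : u ≤ 1 := by omega
      have : d * u ≤ d * 1 := Nat.mul_le_mul_left d hu1
      omega
    · have := hbig d hd
      omega
  · rw [Finset.sum_union hdisj, Finset.sum_image hinj1, Finset.sum_image hinj2]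
    have hNq : (N : ℚ) ≠ 0 := by exact_mod_cast hN0.ne'
    have hbq : (b : ℚ) ≠ 0 := by exact_mod_cast hb0.ne'
    have e1 : ∑ d ∈ S1, (1 / ((N / d : ℕ) : ℚ)) = (q : ℚ) / N := by
      have : ∀ d ∈ S1, (1 / ((N / d : ℕ) : ℚ)) = (d : ℚ) / N := by
        intro d hd
        obtain ⟨hdv, hd0⟩ := hd1 d hd
        have hdq : (d : ℚ) ≠ 0 := by exact_mod_cast hd0.ne'
        rw [Nat.cast_div hdv hdq]
        field_simp
      rw [Finset.sum_congr rfl this, ← Finset.sum_div, ← hs1]
      push_cast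
      rfl
    have e2 : ∑ d ∈ S2, (1 / ((b * (N / d) : ℕ) : ℚ)) = (r : ℚ) / (b * N) := by
      have : ∀ d ∈ S2, (1 / ((b * (N / d) : ℕ) : ℚ)) = (d : ℚ) / (b * N) := by
        intro d hd
        obtain ⟨hdv, hd0⟩ := hd2 d hd
        have hdq : (d : ℚ) ≠ 0 := by exact_mod_cast hd0.ne'
        rw [Nat.cast_mul, Nat.cast_div hdv hdq]
        field_simp
      rw [Finset.sum_congr rfl this, ← Finset.sum_div, ← hs2]
      push_cast
      rfl
    rw [e1, e2]
    have hdq : (b : ℚ) * q + r = a * N := by exact_mod_cast hdiv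
    field_simp
    linarith
  · calc _ ≤ (S1.image (fun d => N / d)).card + (S2.image (fun d => b * (N / d))).card :=
          Finset.card_union_le _ _
      _ ≤ S1.card + S2.card := Nat.add_le_add Finset.card_image_le Finset.card_image_le
      _ ≤ 2 * h := by omega

end Vale.Agent.Lib.P012
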